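import Crest.Agent.N067.V.Phi4
import Crest.Agent.N067.A.HK

/-!
# Row 67 (helper55): ball conversion `F ↦ R = d + N / F ↦ 1 / R`
-/

set_option autoImplicit false

open MeasureTheory Laplacian InnerProductSpace Topology Filter Set Metric
open scoped RealInnerProductSpace ContDiff Gradient NNReal

namespace Crest.Agent.N067.V

open Crest.Agent.R077

noncomputable section

variable {n : ℕ} {f g v F : EE n → ℝ} {x p e : EE n} {φ c S : ℝ}

theorem grad_congr (h : f =ᶠ[𝓝 x] g) : ∇ f x = ∇ g x := by rw [gradient, h.fderiv_eq, gradient]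

theorem grad_add (hf : DifferentiableAt ℝ f x) (hg : DifferentiableAt ℝ g x) :
    ∇ (fun y => f y + g y) x = ∇ f x + ∇ g x := ext_inner_right ℝ fun h => by
  rw [inner_add_left, inner_grad, inner_grad, inner_grad]; exact dr_add hf hg h

theorem grad_sub (hf : DifferentiableAt ℝ f x) (hg : DifferentiableAt ℝ g x) :
    ∇ (fun y => f y - g y) x = ∇ f x - ∇ g x := ext_inner_right ℝ fun h => by
  rw [inner_sub_left, inner_grad, inner_grad, inner_grad]; exact dr_sub hf hg h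

theorem grad_mul (hf : DifferentiableAt ℝ f x) (hg : DifferentiableAt ℝ g x) :
    ∇ (fun y => f y * g y) x = g x • ∇ f x + f x • ∇ g x := ext_inner_right ℝ fun h => by
  rw [inner_add_left, real_inner_smul_left, real_inner_smul_left, inner_grad, inner_grad,
    inner_grad, mul_comm (g x)]
  exact dr_mul hf hg h

theorem grad_inv (hf : DifferentiableAt ℝ f x) (h0 : f x ≠ 0) :
    ∇ (fun y => (f y)⁻¹) x = -(f x ^ 2)⁻¹ • ∇ f x := ext_inner_right ℝ fun h => by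
  rw [real_inner_smul_left, inner_grad, inner_grad, show fderiv ℝ (fun y => (f y)⁻¹) x = _ from
    ((hasDerivAt_inv h0).comp_hasFDerivAt x hf.hasFDerivAt).fderiv]
  rfl

theorem Lm_inv (hf : ContDiffAt ℝ 2 f x) (h0 : f x ≠ 0) :
    Lm v (fun y => (f y)⁻¹) x = -Lm v f x / f x ^ 2 + 2 * gsq f x / f x ^ 3 := by
  rw [Lm_comp (φ := fun s => s⁻¹) (φ1 := fun s => -(s ^ 2)⁻¹) (φ2 := 2 / f x ^ 3) hf
    (contDiffAt_inv ℝ h0) ((eventually_ne_nhds h0).mono fun s hs => hasDerivAt_inv hs)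
    ((((hasDerivAt_pow 2 (f x)).inv (pow_ne_zero 2 h0)).neg).congr_deriv (by field_simp; ring))]
  ring

theorem hb_n (hv : Sol v) (h : 0 < gN v x) (a : EE n) :
    hb (dd v) x (∇ (dd v) x) a = gN v x * ⟪∇ (gN v) x, a⟫ := by
  rw [inner_grad, ← dr, dr_gN hv h, mul_div_cancel₀ _ h.ne']

/-- the size function of a ball support -/
def rr (v F : EE n → ℝ) (y : EE n) : ℝ := dd v y + gN v y / F y

theorem rr_c2 (hv : Sol v) (hN : 0 < gN v x) (cF : ContDiffAt ℝ 2 F x) (hc : F x ≠ 0) :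
    ContDiffAt ℝ 2 (rr v F) x := (c2_of hv.dd_sm x).add ((gN_sm hv hN (k := 2)).div cF hc)

theorem rr_mul (cF : ContDiffAt ℝ 2 F x) (hc : F x ≠ 0) :
    (fun y => (rr v F y - dd v y) * F y) =ᶠ[𝓝 x] gN v :=
  (cF.continuousAt.eventually_ne hc).mono fun y hy => by
    simp only [rr, add_sub_cancel_left, div_mul_cancel₀ _ hy]

theorem grad_rr (hv : Sol v) (hN : 0 < gN v x) (cF : ContDiffAt ℝ 2 F x) (hc : F x ≠ 0) :
    ∇ (rr v F) x = ∇ (dd v) x + (F x)⁻¹ • ∇ (gN v) x - (gN v x / F x ^ 2) • ∇ F x := by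
  have d := (rr_c2 hv hN cF hc).differentiableAt (by simp)
  have h := grad_congr (rr_mul (v := v) cF hc)
  rw [grad_mul (d.fun_sub (hv.dd_diff x)) (cF.differentiableAt (by simp)),
    grad_sub d (hv.dd_diff x), rr, add_sub_cancel_left] at h
  rw [← h, smul_add, smul_smul, smul_smul, inv_mul_cancel₀ hc, one_smul,
    show (F x)⁻¹ * (gN v x / F x) = gN v x / F x ^ 2 by field_simp]
  abel

/-- **ball conversion, exact form** -/
theorem Lm_rr_le (hv : Sol v) (hN : 0 < gN v x) (cF : ContDiffAt ℝ 2 F x) (hF : F x = c)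
    (hc : 0 < c) (hL : ∀ a, -qq v x * c - 2 * √2 * v x * c ^ 2 + S
      + (4 * fderiv ℝ F x a - 2 * (hb (dd v) x a a + c * ‖a‖ ^ 2)) ≤ Lm v F x) (b : EE n) :
    Lm v (rr v F) x ≤ -√2 * v x * (1 - gN v x) ^ 2 + (hsq (dd v) x - gsq (gN v) x) / (gN v x * c)
      - gN v x / c ^ 2 * S - 2 * (1 - gN v x) / gN v x * ⟪∇ (gN v) x, ∇ (dd v) x⟫
      + 2 * c / gN v x * ‖∇ (rr v F) x‖ ^ 2 - 2 / gN v x * ⟪∇ (gN v) x, ∇ (rr v F) x⟫
      + 4 * ⟪∇ (rr v F) x, b⟫ - 4 * (1 - gN v x) / c * ⟪∇ (gN v) x, b⟫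
      + 2 * gN v x / c ^ 2 * (hb (dd v) x b b + c * ‖b‖ ^ 2) := by
  have hc' : F x ≠ 0 := hF ▸ hc.ne'
  have cR := rr_c2 hv hN cF hc'
  have cd := c2_of hv.dd_sm x
  have h1 := Lm_congr (v := v) (rr_mul (v := v) cF hc')
  rw [Lm_mul (cR.sub cd) cF, Lm_sub cR cd, hv.Lm_dd, Lm_gN hv hN, gin_eq,
    grad_sub (cR.differentiableAt (by simp)) (hv.dd_diff x), rr, add_sub_cancel_left, hF] at h1
  have h2 := grad_rr hv hN cF hc'
  have h3 := hL ((c / gN v x) • ∇ (dd v) x + b)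
  have h4 : ∇ F x = (c / gN v x) • (∇ (gN v) x - c • (∇ (rr v F) x - ∇ (dd v) x)) := by
    rw [h2, hF]
    match_scalars <;> field_simp <;> ring
  have h5 := real_inner_self_eq_norm_sq (∇ (dd v) x)
  have h6 := gN_sq v x
  rw [← inner_grad, h4] at h3
  rw [h4] at h1
  generalize ∇ (rr v F) x = D at *
  simp only [inner_add_right, inner_sub_left, inner_sub_right, real_inner_smul_left,
    real_inner_smul_right, map_add, map_smul, add_apply, smul_apply, smul_eq_mul, hb_n hv hN,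
    hb_symm cd b (∇ (dd v) x), norm_add_sq_real, norm_smul, mul_pow, Real.norm_eq_abs, sq_abs, h5,
    real_inner_self_eq_norm_sq, real_inner_comm (∇ (gN v) x) D, real_inner_comm (∇ (dd v) x) D,
    real_inner_comm (∇ (gN v) x) (∇ (dd v) x)] at h1 h3 ⊢
  have h7 := mul_le_mul_of_nonneg_left h3 (show 0 ≤ gN v x / c ^ 2 by positivity)
  rw [sub_eq_iff_eq_add.1 ((eq_div_iff hc.ne').2 (eq_sub_of_add_eq (eq_sub_of_add_eq h1))),
    show tt v x = 1 - gN v x ^ 2 by rw [h6]; ring]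
  refine le_of_sub_nonneg ((sub_nonneg.2 h7).trans_eq ?_)
  simp only [show ‖∇ (dd v) x‖ = gN v x from rfl]
  generalize gN v x = N at *
  field_simp
  ring

theorem one_sub_gN (hv : Sol v) (x : EE n) : 0 ≤ 1 - gN v x ∧ 1 - gN v x ≤ tt v x := by
  have h1 := gN_sq v x
  have h2 := hv.norm_grad_dd_le x
  have h3 : 0 ≤ gN v x := norm_nonneg _
  exact ⟨by linarith, by nlinarith⟩

theorem exists_grad_gN (n : ℕ) : ∃ K : ℝ, 0 ≤ K ∧ ∀ v : EE n → ℝ, Sol v → ∀ x, 1 / 2 ≤ gN v x →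
    ‖∇ (gN v) x‖ ≤ K * tt v x := by
  obtain ⟨K, hK, h⟩ := hk_grad_t n
  refine ⟨K, hK, fun v hv x hx => le_trans ?_ (h v hv x)⟩
  have hN : 0 < gN v x := by linarith
  have e : ∇ (tt v) x = (-2 * gN v x) • ∇ (gN v) x := ext_inner_right ℝ fun a => by
    rw [inner_grad, ← dr, dr_tt hv, hb_n hv hN, real_inner_smul_left, mul_assoc]
  rw [e, norm_smul, Real.norm_eq_abs, abs_of_neg (by linarith)]
  nlinarith [norm_nonneg (∇ (gN v) x)]

theorem amgm' {s u w k : ℝ} (hk : 0 < k) (h : |s| ≤ u * w) : -(2 * s) ≤ k * u ^ 2 + w ^ 2 / k := by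
  have h2 : 0 ≤ (k * u - w) ^ 2 / k := by positivity
  have h3 : (k * u - w) ^ 2 / k = k * u ^ 2 + w ^ 2 / k - 2 * (u * w) := by field_simp; ring
  linarith [neg_le_abs s]

/-- the geometric ratios -/
theorem ratios {N L r d t δ : ℝ} (h0 : 0 < δ) (h1 : δ ≤ 1 / 4) (hr : 0 < r) (hL : r = d + L)
    (hd : |d| ≤ δ * r) (ht : t ≤ δ) (hN : 0 < N) (hN1 : N ≤ 1) (hNt : N ^ 2 = 1 - t) :
    0 < L ∧ 3 / 4 ≤ N ∧ L / N ^ 2 ≤ (1 + 4 * δ) * r ∧ 1 / L ≤ (1 + 2 * δ) / r ∧ L / N ≤ 2 * r ∧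
      L ^ 2 / N * (1 - 2 * δ) ^ 2 ≤ r ^ 2 ∧ N / L * r ≤ 1 + 2 * δ := by
  obtain ⟨d1, d2⟩ := abs_le.1 hd
  have a1 : (1 - δ) * r ≤ L := by linarith
  have a2 : L ≤ (1 + δ) * r := by linarith
  have a3 : 0 < L := by nlinarith
  have a4 : 1 - δ ≤ N := by nlinarith
  have a5 : r ≤ (1 + 2 * δ) * L := by nlinarith [mul_pos h0 hr]
  refine ⟨a3, by linarith, ?_, ?_, ?_, ?_, ?_⟩
  · rw [div_le_iff₀ (by positivity), hNt]
    nlinarith [mul_pos h0 hr, mul_nonneg (by positivity : 0 ≤ (1 + 4 * δ) * r) (sub_nonneg.2 ht)]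
  · rw [div_le_div_iff₀ a3 hr]; linarith
  · rw [div_le_iff₀ hN]; nlinarith
  · rw [div_mul_eq_mul_div, div_le_iff₀ hN, ← mul_pow]
    have b1 : L * (1 - 2 * δ) ≤ (1 - δ) * r := by nlinarith [mul_pos h0 hr]
    have b2 := pow_le_pow_left₀ (mul_nonneg a3.le (by linarith)) b1 2
    nlinarith [mul_nonneg (sq_nonneg r) (show 0 ≤ N - (1 - δ) ^ 2 by nlinarith)]
  · rw [div_mul_eq_mul_div, div_le_iff₀ a3]; nlinarith

theorem ball_alg {N c r d t δ ε K w H g S mn mD Da ma D A B : ℝ} (h0 : 0 < δ) (h1 : δ ≤ 1 / 4)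
    (h2 : 9 * δ ≤ ε) (hK : 0 ≤ K) (hc : 0 < c) (r1 : 1 ≤ r) (hr : r = d + N / c) (hd : |d| ≤ δ * r)
    (t0 : 0 ≤ t) (ht : t ≤ δ) (n0 : 0 ≤ 1 - N) (n1 : 1 - N ≤ t) (hNt : N ^ 2 = 1 - t) (hw : w ≤ 2)
    (hH : 0 ≤ H) (hg : 0 ≤ g) (hS : 0 ≤ S) (hB : 0 ≤ B + c * A ^ 2) (b1 : |mn| ≤ K * t * N)
    (b2 : |mD| ≤ K * t * D) (b3 : |Da| ≤ D * A) (b4 : |ma| ≤ K * t * A) : c * r ≤ 1 + ε ∧
    w * (1 - N) ^ 2 + (H - g) / (N * c) - N / c ^ 2 * S - 2 * (1 - N) / N * mn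
      + 2 * c / N * D ^ 2 - 2 / N * mD + 4 * ((1 - 2 * δ) * Da)
      - 4 * (1 - N) / c * ((1 - 2 * δ) * ma) + 2 * N / c ^ 2 * ((1 - 2 * δ) ^ 2 * (B + c * A ^ 2))
      ≤ (1 + ε) * r * H + (2 + ε) * D ^ 2 / r + 4 * Da + 2 * r ^ 2 * B
        + 2 * (1 + ε) * r * A ^ 2 + (2 + 2 * K + 20 * K ^ 2 / δ) * r * t ^ 2 := by
  have hN : 0 < N := by linarith
  have r0 : 0 < r := by linarith
  obtain ⟨L0, N0, q1, q2, q3, q4, q5⟩ := ratios h0 h1 r0 hr hd ht hN (by linarith) hNt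
  rw [show N / (N / c) = c by field_simp] at q5
  refine ⟨by linarith, ?_⟩
  have e1 : w * (1 - N) ^ 2 ≤ 2 * r * t ^ 2 :=
    (mul_le_mul_of_nonneg_right hw (sq_nonneg _)).trans (by gcongr; linarith)
  have e2 : (H - g) / (N * c) ≤ (1 + ε) * r * H := by
    calc _ ≤ H / (N * c) := by gcongr; linarith
      _ = N / c / N ^ 2 * H := by field_simp
      _ ≤ (1 + 4 * δ) * r * H := by gcongr
      _ ≤ _ := by gcongr; linarith
  have e3 : 0 ≤ N / c ^ 2 * S := by positivity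
  have e4 : -(2 * (1 - N) / N * mn) ≤ 2 * K * r * t ^ 2 := by
    calc _ = 2 * (1 - N) / N * -mn := by ring
      _ ≤ 2 * t / N * (K * t * N) :=
        (mul_le_mul_of_nonneg_left ((neg_le_abs _).trans b1) (by positivity)).trans (by gcongr)
      _ = 2 * K * 1 * t ^ 2 := by field_simp
      _ ≤ _ := by gcongr
  have e5 : 2 * c / N * D ^ 2 ≤ (2 + 4 * δ) * D ^ 2 / r := by
    rw [one_div_div] at q2
    calc _ = 2 * D ^ 2 * (c / N) := by ring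
      _ ≤ 2 * D ^ 2 * ((1 + 2 * δ) / r) := by gcongr
      _ = _ := by ring
  have e6 : -(2 / N * mD) ≤ δ * D ^ 2 / r + 4 * K ^ 2 / δ * r * t ^ 2 := by
    refine le_of_eq_of_le (by ring) ((amgm' (s := mD / N) (u := D) (w := 2 * (K * t))
      (div_pos h0 r0) ?_).trans_eq (by field_simp; ring))
    rw [abs_div, abs_of_pos hN, div_le_iff₀ hN]
    have := (abs_nonneg _).trans b2
    nlinarith
  have e7 : -(8 * δ * Da) ≤ 4 * δ * D ^ 2 / r + 4 * δ * r * A ^ 2 :=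
    le_of_eq_of_le (by ring) ((mul_le_mul_of_nonneg_left (amgm' r0 (b3.trans_eq (mul_comm _ _)))
      (show 0 ≤ 4 * δ by positivity)).trans_eq (by ring))
  have e8 : -(4 * (1 - N) / c * ((1 - 2 * δ) * ma)) ≤ δ * r * A ^ 2
      + 16 * K ^ 2 / δ * r * t ^ 2 := by
    have c2 : (1 - N) / c * (1 - 2 * δ) ≤ 2 * r := by
      calc _ ≤ 1 / c * 1 := mul_le_mul (by gcongr; linarith) (by linarith) (by linarith)
            (by positivity)
        _ = N / c / N := by field_simp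
        _ ≤ _ := q3
    have c3 : 0 ≤ (1 - N) / c * (1 - 2 * δ) := mul_nonneg (by positivity) (by linarith)
    refine le_of_eq_of_le (by ring) ((amgm' (s := 2 * ((1 - N) / c * (1 - 2 * δ)) * ma) (u := A)
      (w := r * (4 * (K * t))) (mul_pos h0 r0) ?_).trans_eq (by field_simp; ring))
    rw [abs_mul, abs_of_nonneg (by positivity)]
    exact (mul_le_mul (mul_le_mul_of_nonneg_left c2 zero_le_two) b4 (abs_nonneg _)
      (by positivity)).trans_eq (by ring)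
  have e9 : 2 * N / c ^ 2 * ((1 - 2 * δ) ^ 2 * (B + c * A ^ 2)) ≤
      2 * r ^ 2 * B + 2 * (1 + 2 * δ) * r * A ^ 2 := by
    calc _ = 2 * ((N / c) ^ 2 / N * (1 - 2 * δ) ^ 2) * (B + c * A ^ 2) := by field_simp
      _ ≤ 2 * r ^ 2 * (B + c * A ^ 2) := by gcongr
      _ ≤ _ := by linarith [mul_le_mul_of_nonneg_left q5 (show 0 ≤ 2 * r * A ^ 2 by positivity)]
  have f1 : 9 * δ * (D ^ 2 / r) ≤ ε * (D ^ 2 / r) := by gcongr
  have f2 : 9 * δ * (r * A ^ 2) ≤ 2 * ε * (r * A ^ 2) :=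
    mul_le_mul_of_nonneg_right (by linarith) (by positivity)
  simp only [div_eq_mul_inv] at *
  linarith

/-- **ball conversion, `R`-form with errors** -/
theorem ball_R (n : ℕ) {ε : ℝ} (hε : 0 < ε) : ∃ δ C : ℝ, 0 < δ ∧ δ ≤ 1 / 4 ∧ 0 ≤ C ∧
    ∀ (v F : EE n → ℝ) (x : EE n) (c r S : ℝ), Sol v → ContDiffAt ℝ 2 F x → F x = c → 0 < c →
      rr v F x = r → 1 ≤ r → |dd v x| ≤ δ * r → tt v x ≤ δ → 0 ≤ S →
      (∀ a, 0 ≤ hb (dd v) x a a + c * ‖a‖ ^ 2) →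
      (∀ a, -qq v x * c - 2 * √2 * v x * c ^ 2 + S
        + (4 * fderiv ℝ F x a - 2 * (hb (dd v) x a a + c * ‖a‖ ^ 2)) ≤ Lm v F x) →
      0 < gN v x ∧ c * r ≤ 1 + ε ∧ ∀ a, Lm v (rr v F) x ≤ r * ((1 + ε) * hsq (dd v) x)
        + (2 + ε) * ‖∇ (rr v F) x‖ ^ 2 / r + 4 * ⟪∇ (rr v F) x, a⟫ + 2 * r ^ 2 * hb (dd v) x a a
        + 2 * (1 + ε) * r * ‖a‖ ^ 2 + C * r * tt v x ^ 2 := by
  obtain ⟨K, hK, hm⟩ := exists_grad_gN n
  obtain ⟨δ, h0, h1, h2⟩ : ∃ δ : ℝ, 0 < δ ∧ δ ≤ 1 / 4 ∧ 9 * δ ≤ ε :=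
    ⟨min (1 / 4) (ε / 9), by positivity, min_le_left _ _, by linarith [min_le_right (1 / 4) (ε / 9)]⟩
  refine ⟨δ, 2 + 2 * K + 20 * K ^ 2 / δ, h0, h1, by positivity,
    fun v F x c r S hv cF hF hc hr r1 hd ht hS hB hL => ?_⟩
  obtain ⟨n0, n1⟩ := one_sub_gN hv x
  have hN : 0 < gN v x := by linarith
  have m1 : ∀ b, |⟪∇ (gN v) x, b⟫| ≤ K * tt v x * ‖b‖ := fun b => (abs_real_inner_le_norm _ _).trans
    (mul_le_mul_of_nonneg_right (hm v hv x (by linarith)) (norm_nonneg _))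
  have hw : -√2 * v x ≤ 2 := by nlinarith [sqrt2_pos, sqrt2_mul, (abs_lt.1 (hv.lt x)).1]
  have key := fun a => ball_alg h0 h1 h2 hK hc r1 (by rw [← hr, rr, hF]) hd (hv.tt_nonneg x) ht n0
    n1 (gN_sq v x) hw (hsq_nonneg (dd v) x) (gsq_nonneg (gN v) x) hS (hB a) (m1 _) (m1 _)
    (abs_real_inner_le_norm (∇ (rr v F) x) a) (m1 a)
  refine ⟨hN, (key 0).1, fun a => (Lm_rr_le hv hN cF hF hc hL ((1 - 2 * δ) • a)).trans
    (le_of_eq_of_le ?_ ((key a).2.trans_eq (by ring)))⟩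
  simp only [real_inner_smul_right, map_smul, smul_apply, smul_eq_mul, norm_smul, mul_pow,
    Real.norm_eq_abs, sq_abs]
  ring

/-- from the `R`-form to the `1 / R`-form -/
theorem inv_form {R : EE n → ℝ} {r P ε C : ℝ} (cR : ContDiffAt ℝ 2 R x) (hr : R x = r) (r0 : 0 < r)
    {a : EE n} (h : Lm v R x ≤ r * P + (2 + ε) * ‖∇ R x‖ ^ 2 / r + 4 * ⟪∇ R x, a⟫
      + 2 * r ^ 2 * hb (dd v) x a a + 2 * (1 + ε) * r * ‖a‖ ^ 2 + C * r * tt v x ^ 2) :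
    -(r⁻¹ * P) + 4 * ⟪∇ (fun y => (R y)⁻¹) x, a⟫ - 2 * hb (dd v) x a a
      - 2 * (1 + ε) * r⁻¹ * ‖a‖ ^ 2 - ε * ‖∇ (fun y => (R y)⁻¹) x‖ ^ 2 / r⁻¹
      - C * r⁻¹ * tt v x ^ 2 ≤ Lm v (fun y => (R y)⁻¹) x := by
  have h0 : R x ≠ 0 := hr ▸ r0.ne'
  rw [Lm_inv cR h0, grad_inv (cR.differentiableAt (by simp)) h0, hr, gsq_eq, real_inner_smul_left,
    norm_smul, mul_pow, Real.norm_eq_abs, sq_abs]
  refine le_of_sub_nonneg ((div_nonneg (sub_nonneg.2 h) (sq_nonneg r)).trans_eq ?_)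
  field_simp
  ring

/-- **exact gradient of the size function of a far ball contact**, `w = c p / N` -/
theorem grad_rr_far (hv : Sol v) (hN : 0 < gN v x) (cF : ContDiffAt ℝ 2 F x) (hF : F x = c)
    (hc : 0 < c) (hp : p ≠ 0)
    (hD : ∀ h, fderiv ℝ F x h = 2 / ‖p‖ ^ 2 * (hb (dd v) x p h + c * ⟪p, h⟫)) {u : EE n}
    (hu : u = (gN v x)⁻¹ • ∇ (dd v) x - (2 * gN v x / (c * ‖p‖ ^ 2)) • p) :
    ∇ (rr v F) x = -((1 - gN v x) / gN v x) • ∇ (dd v) x + (u + c⁻¹ • hop (dd v) x u) := by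
  have h1 : ∇ F x = (2 / ‖p‖ ^ 2) • (hop (dd v) x p + c • p) := ext_inner_right ℝ fun h => by
    rw [inner_grad, hD, real_inner_smul_left, inner_add_left, inner_hop, real_inner_smul_left]
  have := norm_pos_iff.2 hp
  rw [grad_rr hv hN cF (hF ▸ hc.ne'), h1, grad_gN hv hN, hF, hu, map_sub, map_smul, map_smul]
  match_scalars <;> field_simp
  ring

end

end Crest.Agent.N067.V
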