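import Crest.Agent.N067.V.BallT
import Crest.Agent.N067.X2.Defs

/-!
# Row 67 (helper55): `X1Stmt` from `FL`, `X0`, cap/rim (`X2`) and the ball contacts
-/

set_option autoImplicit false

open MeasureTheory Laplacian InnerProductSpace Topology Filter Set Metric
open scoped RealInnerProductSpace ContDiff Gradient NNReal

namespace Crest.Agent.N067.M.Bl

open Crest.Agent.R077 Crest.Agent.N067.V Wd

noncomputable section

variable {n : ℕ} {β : Bo} {v F R : EE n → ℝ} {x y p w z om e g ν u : EE n}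
  {r s ρm δ ε ηt C M C2 : ℝ}

theorem isRim (hc : X0.Cone β ν w om) (h : X0.Rim β ν w om) : X2.IsRim β ν w om := by
  have hη := β.η0
  have h1 := β.η1
  have h2 := β.h0
  have h3 := β.h1
  have h4 := X0.cu1_ge β
  have h5 := X0.ga_ge β
  have h6 := X0.ga_le β
  have h0 : 0 < β.η * β.h := by positivity
  have a1 : β.η * (1 - X0.cu1 β) ≤ 101 / 100 * β.h := by
    rw [X0.one_sub_cu1, ← mul_div_assoc, div_le_iff₀ (by positivity)]; nlinarith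
  have a2 : β.η * β.h / 10 ≤ 1 - X0.cu0 β := by
    rw [X0.one_sub_cu0, div_le_div_iff₀ (by positivity) (by positivity)]; nlinarith
  have a3 : ‖X2.Pj ν om‖ ^ 2 = 1 - ⟪om, ν⟫ ^ 2 := by
    rw [show X2.Pj ν om = X0.tan ν om from rfl, X0.norm_tan_sq hc.ax, hc.unit, one_pow]
  have a4 : ‖X2.Pj ν w‖ ^ 2 = β.η ^ 2 - (β.η * X0.cu1 β) ^ 2 := by
    rw [show X2.Pj ν w = X0.tan ν w from rfl, X0.norm_tan_sq hc.ax, h.n1, h.ax]
  have a5 : β.η * β.h / 6 ≤ ‖X2.Pj ν om‖ ^ 2 := by nlinarith [h.ge, h.le]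
  have a6 : 0 ≤ 1 - X0.cu1 β := (div_pos h2 hη).le.trans (X0.cu1_lt β)
  refine ⟨by nlinarith [h.ge], by linarith, (sq_le_sq₀ (norm_nonneg _) (by positivity)).1 ?_, ?_⟩
  · nlinarith [mul_le_mul_of_nonneg_left a1 hη.le, mul_nonneg (sq_nonneg β.η) (sq_nonneg (1 - X0.cu1 β))]
  · have := hc.le ((β.η - β.h) • ν) ⟨by
      rw [norm_smul, hc.ax, Real.norm_of_nonneg (by linarith)]; linarith, by
      rw [← add_smul, norm_smul, hc.ax, Real.norm_of_nonneg (by linarith)]; linarith⟩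
    rw [inner_sub_right, real_inner_smul_right] at this
    linarith

theorem At.mono (h : At β v ρm δ x r) {δ' : ℝ} (h1 : δ ≤ δ') (h2 : δ' ≤ 1 / 4) :
    At β v ρm δ' x r :=
  ⟨h.sol, h.eq, h.one, h2, h.hd.trans (mul_le_mul_of_nonneg_right h1 h.r0.le), h.ht.trans h1, h.fit⟩

theorem At.small (h : At β v ρm δ x r) {δ' : ℝ} (h1 : δ ≤ δ') : X2.Small v δ' r x :=
  ⟨h.t1.trans h1, h.hd.trans (mul_le_mul_of_nonneg_right h1 h.r0.le), h.one⟩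

theorem RF.grad (h : RF β v ρm ε ηt C x r g) (hr : rt β v ρm x = r)
    (hd : DifferentiableAt ℝ (rt β v ρm) x) : ∇ (rt β v ρm) x = g := by
  obtain ⟨R, h1, h2, h3, h4, -⟩ := h 1 one_pos
  rw [← h4, gradient, fderiv_touch (h1.differentiableAt (by simp)) hd (hr.trans h2.symm) h3,
    gradient]

theorem RF.sup (h : RF β v ρm ε ηt C x r g) (hr : rt β v ρm x = r) (r1 : 1 ≤ r)
    (hd : DifferentiableAt ℝ (rt β v ρm) x) (hp : ∀ᶠ y in 𝓝 x, 0 < rt β v ρm y)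
    (hB : ∀ a, 0 ≤ (1 + ε) * ph β v ρm x * ‖a‖ ^ 2 + hb (dd v) x a a) :
    Sup β v ρm ε ηt C x := by
  refine ⟨hB, fun a e he => ?_⟩
  obtain ⟨R, h1, h2, h3, h4, h5⟩ := h e he
  have r0 : 0 < r := by linarith
  have hT : Touch (ph β v ρm) (fun y => (R y)⁻¹) x := ⟨h1.inv (h2 ▸ r0.ne'), by rw [ph, hr, h2],
    (h3.and hp).mono fun y hy => inv_anti₀ hy.2 hy.1⟩
  refine ⟨_, hT, le_trans ?_ (inv_form (v := v) (ε := ε) (C := C) (a := a)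
    (P := (if r * Bn v x ≤ ηt then 0 else (1 + ε) * hsq (dd v) x) + e / r) h1 h2 r0
    ((h5 a).trans_eq (by rw [h4, mul_add r, mul_div_cancel₀ _ r0.ne']; ring)))⟩
  have h6 : r⁻¹ * (e / r) ≤ e := (mul_le_of_le_one_left (by positivity)
    (inv_le_one_of_one_le₀ r1)).trans (div_le_self he.le r1)
  rw [hT.grad_eq (hd.inv (hr ▸ r0.ne')), ph, hr]
  split_ifs <;> linarith

theorem rf_top (hr : rt β v ρm x = ρm) (r0 : 0 < ρm) (hε : 0 < ε) (hC : 0 ≤ C)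
    (hB : ∀ a, 0 ≤ (1 + ε) * ph β v ρm x * ‖a‖ ^ 2 + hb (dd v) x a a) :
    RF β v ρm ε ηt C x ρm 0 := fun e he => by
  refine ⟨fun _ => ρm, contDiffAt_const, rfl, Eventually.of_forall (X0.rt_le_rm β v ρm),
    gradient_fun_const _ _, fun a => ?_⟩
  have h1 := mul_nonneg (sq_nonneg ρm) (hB a)
  rw [ph, hr, show ρm ^ 2 * ((1 + ε) * ρm⁻¹ * ‖a‖ ^ 2 + hb (dd v) x a a) =
    (1 + ε) * ρm * ‖a‖ ^ 2 + ρm ^ 2 * hb (dd v) x a a by field_simp] at h1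
  have h2 : 0 ≤ C * ρm * tt v x ^ 2 := by positivity
  have h3 := mul_nonneg r0.le (mul_nonneg (add_pos one_pos hε).le (hsq_nonneg (dd v) x))
  simp only [Lm_const, norm_zero, inner_zero_left]
  split_ifs <;> norm_num <;> linarith

theorem val_mono {M' : ℝ} (h : x ∈ Val v M C2 ρm) (h0 : 0 < M') (h1 : M' ≤ M) :
    x ∈ Val v M' C2 ρm := ⟨h.1.trans_le (one_div_le_one_div_of_le h0 h1), h.2⟩

theorem log_small {p C2 s : ℝ} (h0 : 0 < p) (h : 4 * |C2| * √p ≤ s) :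
    C2 * Real.log (1 / p) ≤ s * (1 / (2 * p)) ∨ 1 ≤ p := by
  refine (lt_or_ge p 1).imp_left fun h1 => ?_
  have a0 := Real.sqrt_pos.2 h0
  have a1 : Real.log (1 / p) ≤ 2 / √p := by
    have := Real.log_le_sub_one_of_pos (one_div_pos.2 a0)
    rw [one_div, Real.log_inv, Real.log_sqrt h0.le] at this
    rw [one_div, Real.log_inv, div_eq_mul_inv]; linarith
  have a2 : 0 ≤ Real.log (1 / p) := Real.log_nonneg (by rw [le_div_iff₀ h0]; linarith)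
  calc _ ≤ |C2| * (2 / √p) := mul_le_mul (le_abs_self _) a1 a2 (abs_nonneg _)
    _ = 4 * |C2| * √p * (1 / (2 * p)) := by
      nth_rw 3 [← Real.mul_self_sqrt h0.le]; field_simp; ring
    _ ≤ _ := by gcongr

/-- the facts at valid points -/
theorem val_facts (hF : FLStmt n) (h0 : X0Stmt n) (β : Bo) (C2 K M0 : ℝ) (hδ : 0 < δ)
    (δ1 : δ ≤ 1 / 4) : ∃ M : ℝ, 1 ≤ M ∧ ∀ (v : EE n → ℝ) (ρm : ℝ), PS v → ∀ x ∈ Val v M C2 ρm,
      X0.Sm v x (rt β v ρm x) ∧ (∀ᶠ y in 𝓝 x, 0 < rt β v ρm y) ∧ Fit β v x (rt β v ρm x) ∧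
      (rt β v ρm x = ρm ∧ 2 * ph0 v x * ρm ≤ 1 ∨
        M0 ≤ rt β v ρm x ∧ |dd v x| ≤ δ * rt β v ρm x) ∧
      (rt β v ρm x * ph0 v x ≤ K → rt β v ρm x * tt v x ≤ δ) := by
  obtain ⟨M1, C, m1, -, H⟩ := h0 C2 β
  obtain ⟨M2, m2, H2⟩ := hF.tup C2
  obtain ⟨s, hs⟩ : ∃ s, s = δ / (4 * |C2| + |K| + 1) := ⟨_, rfl⟩
  have s0 : 0 < s := hs ▸ by positivity
  have s1 : (4 * |C2| + |K| + 1) * s = δ := by rw [hs]; field_simp
  refine ⟨M1 + M2 + 2 * |M0| + 1 / s ^ 2, by linarith [abs_nonneg M0, one_div_pos.2 (pow_pos s0 2)],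
    fun v ρm hv x hx => ?_⟩
  have b0 := one_div_pos.2 (pow_pos s0 2)
  have b1 := abs_nonneg M0
  have x1 := val_mono hx (M' := M1) (by linarith) (by linarith)
  have x2 := val_mono hx (M' := M2) (by linarith) (by linarith)
  have x3 := (val_mono hx (M' := 1 / s ^ 2) b0 (by linarith)).1
  have x4 := (val_mono hx (M' := 2 * |M0| + 1) (by linarith) (by linarith)).1
  obtain ⟨o1, -, o2⟩ := H v ρm hv
  obtain ⟨a1, a2, a3, a4, -⟩ := o2 x x1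
  have p0 := hF.pos v hv x
  rw [one_div_one_div] at x3
  rw [lt_div_iff₀ (by linarith)] at x4
  have p1 : ph0 v x < 1 := by nlinarith
  have p2 : √(ph0 v x) ≤ s := Real.sqrt_le_iff.2 ⟨s0.le, x3.le⟩
  have p3 := Real.sqrt_nonneg (ph0 v x)
  have t1 : tt v x ≤ ph0 v x * √(ph0 v x) := by
    refine (H2 v hv x x x2.1.le x2.2.1.le (by simpa using (abs_nonneg _).trans x2.2.1.le)).trans ?_
    rw [Real.sqrt_eq_rpow, ← Real.rpow_one_add' p0.le (by norm_num)]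
    exact Real.rpow_le_rpow_of_exponent_ge p0 p1.le (by norm_num)
  have k1 := mul_nonneg (abs_nonneg C2) s0.le
  have k2 := mul_nonneg (abs_nonneg K) s0.le
  have d1 : |dd v x| < rt β v ρm x := by linarith [abs_nonneg (dd v x)]
  refine ⟨⟨hv.toSol, by nlinarith [one_sub_NN hv.toSol x], a2⟩, ?_, a4 _ d1 le_rfl, ?_, fun hK => ?_⟩
  · filter_upwards [o1.mem_nhds x1] with y hy
    linarith [(o2 y hy).2.1, abs_nonneg (dd v y)]
  · rcases le_total ρm (1 / (2 * ph0 v x)) with h | h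
    · rw [min_eq_left h] at a3
      exact Or.inl ⟨a1.antisymm a3, by rwa [le_div_iff₀ (by positivity), mul_comm] at h⟩
    · rw [min_eq_right h] at a3
      refine Or.inr ⟨le_trans ?_ a3, hx.2.1.le.trans (((log_small (s := δ) p0 ?_).resolve_right
        p1.not_ge).trans (mul_le_mul_of_nonneg_left a3 hδ.le))⟩
      · rw [le_div_iff₀ (by positivity)]; nlinarith [le_abs_self M0]
      · nlinarith [mul_le_mul_of_nonneg_left p2 (abs_nonneg C2)]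
  · have r0 : 0 ≤ rt β v ρm x := (abs_nonneg _).trans d1.le
    calc _ ≤ rt β v ρm x * ph0 v x * √(ph0 v x) := by
          rw [mul_assoc]; exact mul_le_mul_of_nonneg_left t1 r0
      _ ≤ |K| * s := mul_le_mul (hK.trans (le_abs_self K)) p2 p3 (abs_nonneg K)
      _ ≤ δ := by linarith

theorem psd_of (hε : 0 < ε) (hδ : δ ≤ ε / (1 + ε)) (h : X0.Sm v x (rt β v ρm x))
    (hf : Fit β v x (rt β v ρm x))
    (h1 : rt β v ρm x = ρm ∧ 2 * ph0 v x * ρm ≤ 1 ∨ |dd v x| ≤ δ * rt β v ρm x) (a : EE n) :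
    0 ≤ (1 + ε) * ph β v ρm x * ‖a‖ ^ 2 + hb (dd v) x a a := by
  have r0 : 0 < rt β v ρm x := by linarith [h.r8]
  have key : ∀ c, c * rt β v ρm x ≤ 1 + ε → 0 ≤ hb (dd v) x a a + c * ‖a‖ ^ 2 →
      0 ≤ (1 + ε) * ph β v ρm x * ‖a‖ ^ 2 + hb (dd v) x a a := fun c h2 h3 => by
    rw [← le_div_iff₀ r0, div_eq_mul_inv] at h2
    rw [ph]
    linarith [mul_le_mul_of_nonneg_right h2 (sq_nonneg ‖a‖)]
  rcases h1 with ⟨h1, h2⟩ | h1
  · refine key _ ?_ (hb_add_nonneg h.sol x a)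
    rw [← h1] at h2
    nlinarith [le_max_left (phi (dd v) x) (phi (dd (ng v)) x), show ph0 v x = max _ _ from rfl,
      phi_nonneg h.sol x]
  · refine key _ ?_ (h.psd hf a)
    rw [le_div_iff₀ (by positivity)] at hδ
    rw [div_mul_eq_mul_div, div_le_iff₀ h.Lpos]
    nlinarith [NN_le h.sol x, (abs_le.1 h1).2, mul_le_mul_of_nonneg_right hδ r0.le]

theorem x1_of (hF : FLStmt n) (h0 : X0Stmt n) (hC : X2.CRStmt n) (hX : X2.FxStmt n) :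
    X1Stmt n := fun ε hε e0 he0 => by
  obtain ⟨δ0, d0, hC⟩ := hC ε hε
  obtain ⟨δx, Cx, dx, cx, hX⟩ := hX ε hε
  obtain ⟨η, η0, η1⟩ : ∃ η > 0, η ≤ min e0 (min δ0 (1 / 100)) := ⟨_, by positivity, le_rfl⟩
  obtain ⟨κ, κ0, κ1⟩ : ∃ κ > 0, κ ≤ min δx (min δ0 (1 / 10000)) := ⟨_, by positivity, le_rfl⟩
  simp only [le_min_iff] at η1 κ1
  obtain ⟨β, bη, bh⟩ : ∃ β : Bo, β.η = η ∧ β.h = κ * η :=
    ⟨⟨η, κ * η, η0, η1.2.2, by positivity, by nlinarith [κ1.2.2]⟩, rfl, rfl⟩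
  obtain ⟨ηc, δc, Cc, ec, dc, cc, hC⟩ := hC β (bη ▸ η1.2.1)
    (by rw [bh, bη]; exact mul_le_mul_of_nonneg_right κ1.2.1 η0.le)
  replace hX := hX β (by rw [bh, bη]; exact mul_le_mul_of_nonneg_right κ1.1 η0.le)
  obtain ⟨ηb, δb, Cb, eb, db, db', cb, hB⟩ := ballS n hε β
  obtain ⟨δd, Cd, dd0, dd', cd, hD⟩ := degS n hε
  obtain ⟨ηt, t0, t1⟩ : ∃ ηt > 0, ηt ≤ min ηc (min ηb (1 / 100)) := ⟨_, by positivity, le_rfl⟩
  obtain ⟨δ, δp, δ1⟩ : ∃ δ > 0, δ ≤ min (min δc δx) (min (min δb δd) (ε / (1 + ε))) :=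
    ⟨_, by positivity, le_rfl⟩
  simp only [le_min_iff] at t1 δ1
  obtain ⟨⟨δ1, δ2⟩, ⟨δ3, δ4⟩, δ5⟩ := δ1
  have δ6 : δ ≤ 1 / 4 := δ3.trans db'
  have δ7 : δ ^ 2 / 80 ≤ δ / 2 := by nlinarith
  have δ8 : δ ^ 2 / 80 ≤ δ := by linarith
  have n0 : (0 : ℝ) ≤ n := n.cast_nonneg
  obtain ⟨C, c1, c2, c3, c4, c5⟩ : ∃ C : ℝ, Cc ≤ C ∧ Cx ≤ C ∧ Cb ≤ C ∧ Cd ≤ C ∧ 2 * n + 1 ≤ C :=
    ⟨Cc + Cx + Cb + Cd + (2 * n + 1), by linarith, by linarith, by linarith, by linarith,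
      by linarith⟩
  obtain ⟨M0, hM⟩ := X0.contact n δp δ6
  refine ⟨β, ηt, C, bη ▸ η1.1, t0, t1.2.2, cc.trans c1, fun C2 K => ?_, fun C2 => ?_⟩
  swap
  · obtain ⟨M, m1, H⟩ := val_facts hF h0 β C2 0 0 δp δ6
    refine ⟨M, m1, fun v ρm hv x hx => ?_⟩
    obtain ⟨a1, -, a3, a4, -⟩ := H v ρm hv x hx
    exact psd_of hε δ5 a1 a3 (a4.imp_right And.right)
  obtain ⟨M, m1, H⟩ := val_facts hF h0 β C2 K M0 (δ := δ ^ 2 / 80) (by positivity) (δ8.trans δ6)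
  refine ⟨M, m1, fun v ρm hv x hx hK hd => ?_⟩
  obtain ⟨a1, a2, a3, a4, a5⟩ := H v ρm hv x hx
  have ps := psd_of hε (δ8.trans δ5) a1 a3 (a4.imp_right And.right)
  have r1 : 1 ≤ rt β v ρm x := by linarith only [a1.r8]
  have r0 : 0 ≤ rt β v ρm x := zero_le_one.trans r1
  suffices h : ∃ g, RF β v ρm ε ηt C x (rt β v ρm x) g ∧ (rt β v ρm x < ρm →
      rt β v ρm x * Bn v x ≤ ηt → ∃ w om z, Ct β v ρm ε C x g w om z) by
    obtain ⟨g, h1, h2⟩ := h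
    exact ⟨h1.sup rfl r1 hd a2 ps, by rwa [h1.grad rfl hd]⟩
  rcases (X0.rt_le_rm β v ρm x).eq_or_lt with hρ | hρ
  · exact ⟨0, hρ.symm ▸ rf_top hρ (by linarith only [hρ, r1]) hε (by linarith only [cc, c1]) ps,
      fun h => absurd hρ h.ne⟩
  obtain ⟨a6, a7⟩ := a4.resolve_left fun h => hρ.ne h.1
  have hA : At β v ρm (δ ^ 2 / 80) x (rt β v ρm x) :=
    ⟨a1.sol, rfl, r1, δ8.trans δ6, a7, a5 hK, a3⟩
  rcases hM β v ρm x a1 a7 a6 hρ with ⟨e, he⟩ | ⟨w, om, z, y, hc, hy⟩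
  · obtain ⟨h1, g, h2⟩ := (hD β v ρm _ ηt x (hA.mono (δ8.trans δ4) dd') t1.2.2).2 e he
    exact ⟨g, h2.mono c4 r0, fun _ h => absurd h h1⟩
  have s0 := hc.sig hy
  have s1 : 3 / 4 * NN v x ≤ NN v z :=
    le_trans (mul_le_mul_of_nonneg_right (by linarith only [δ6]) (NN_nonneg v x)) s0
  suffices h : ∃ g, RF β v ρm ε ηt C x (rt β v ρm x) g ∧
      (rt β v ρm x * Bn v x ≤ ηt → TL β v ε C x (rt β v ρm x) g om z) by
    obtain ⟨g, h1, h2⟩ := h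
    exact ⟨g, h1, fun _ h => ⟨w, om, z, hc.cone.mem, hc.cone.unit, hc.ne, s1, hc.pos, hc.grad, hc.eq,
      hc.cone.key, fun h => (hc.cone.cap' h).2, (hc.lap (le_trans (mul_le_mul_of_nonneg_right
        (by linarith only [δ6]) a1.Lpos.le) hy)).trans c5, (h2 h).1, (h2 h).2⟩⟩
  have sg : |1 - NN v z / NN v x| ≤ δ := by
    have := hA.N0
    rw [abs_le, ← sub_nonneg, sub_le_comm, le_div_iff₀ this, sub_neg_eq_add, sub_add_eq_add_sub,
      sub_nonneg, div_le_iff₀ this]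
    exact ⟨by nlinarith only [NN_le a1.sol z, one_sub_NN a1.sol x, hA.t1, δ7, hA.N1, δp], s0⟩
  have hcr : X2.IsCap β (nu v x) w om ∨ X2.IsRim β (nu v x) w om → ∃ g,
      RF β v ρm ε ηt C x (rt β v ρm x) g ∧
      (rt β v ρm x * Bn v x ≤ ηt → TL β v ε C x (rt β v ρm x) g om z) := fun h => by
    obtain ⟨g, h1, h2⟩ := hC v ρm _ ηt x w om z a1.sol t0.le t1.1 (hA.small (δ8.trans δ1))
      (by have := hA.tc; rwa [← mul_div_assoc, le_div_iff₀ hA.L0] at this) hA.psd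
      ⟨hc.cone.mem, hc.cone.unit, sg.trans δ1, hc.pos, hc.grad, hc.eq⟩ h
    refine ⟨g, RF.mono h2 c1 r0, fun hB => TL.mono ?_ a1.sol c2 r0⟩
    obtain ⟨k1, k2, k3, k4, k5⟩ := hX v _ x w om z g a1.sol (hA.small (δ8.trans δ2))
      ⟨hc.cone.mem, hc.cone.unit, sg.trans δ2, hc.pos, hc.grad, hc.eq⟩ h h1 (hB.trans t1.2.2)
    exact ⟨k1, fun _ => ⟨k2, k3, k4, fun _ => k5.trans (add_le_add_left (le_add_of_nonneg_right
      (mul_nonneg (zero_le_one.trans cx) (sq_nonneg _))) _)⟩⟩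
  rcases hc.tri with h | h | h
  · obtain ⟨g, h1, h2⟩ := hB v ρm _ ηt y x w om z (hA.mono (δ8.trans δ3) db') t1.2.1 hc s1 h.1
      h.2.1 h.2.2
    exact ⟨g, h1.mono c3 r0, fun h => (h2 h).mono a1.sol c3 r0⟩
  · exact hcr (Or.inl h.2)
  · exact hcr (Or.inr (isRim hc.cone h.1))

end

end Crest.Agent.N067.M.Bl
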