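import Crest.Agent.N067.V.Ball
import Crest.Agent.N067.M.Wedge0

/-!
# Row 67 (helper55): ball and degenerate contacts on `M.Defs`, part 1 (supports)
-/

set_option autoImplicit false

open MeasureTheory Laplacian InnerProductSpace Topology Filter Set Metric
open scoped RealInnerProductSpace ContDiff Gradient NNReal

namespace Crest.Agent.N067.M.Bl

open Crest.Agent.R077 Crest.Agent.N067.V Wd

noncomputable section

variable {n : ℕ} {β : Bo} {v F R : EE n → ℝ} {x y p om e : EE n} {r s ρm δ ε ηt C : ℝ}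

theorem Bn_sq (v : EE n → ℝ) (x : EE n) : Bn v x ^ 2 = hsq (dd v) x :=
  Real.sq_sqrt (hsq_nonneg _ _)

theorem norm_hop (hv : Sol v) (x a : EE n) : ‖hop (dd v) x a‖ ≤ Bn v x * ‖a‖ := by
  have cd := c2_of hv.dd_sm x
  have h1 : ∀ i, hop (dd v) x a i = ∑ j, hs (dd v) i j x * a j := fun i => by
    rw [← grad_dr cd, grad_apply, dr_eq_sum, pdv_sum _ fun j _ => (diffAt_pdv cd j).const_mul _]
    exact Finset.sum_congr rfl fun j _ => by rw [pdv_const_mul (diffAt_pdv cd j), mul_comm]; rfl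
  refine (sq_le_sq₀ (norm_nonneg _) (mul_nonneg (Real.sqrt_nonneg _) (norm_nonneg _))).1 ?_
  rw [mul_pow, Real.sq_sqrt (hsq_nonneg _ _), EuclideanSpace.real_norm_sq_eq,
    EuclideanSpace.real_norm_sq_eq, hsq, Finset.sum_mul]
  exact Finset.sum_le_sum fun i _ => by rw [h1]; exact Finset.sum_mul_sq_le_sq_mul_sq _ _ _

theorem abs_hb_le (hv : Sol v) (x a b : EE n) : |hb (dd v) x a b| ≤ Bn v x * ‖a‖ * ‖b‖ := by
  rw [← inner_hop]
  exact (abs_real_inner_le_norm _ _).trans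
    (mul_le_mul_of_nonneg_right (norm_hop hv x a) (norm_nonneg _))

theorem nn_eq (hN : 0 < NN v x) : nn v x = NN v x • nu v x := by
  rw [nu, smul_smul, mul_inv_cancel₀ hN.ne', one_smul]

theorem cont_nn (hv : Sol v) : Continuous (nn v) :=
  (toDual ℝ (EE n)).symm.continuous.comp ((hv.dd_cd 1).continuous_fderiv one_ne_zero)

theorem cont_NN (hv : Sol v) : Continuous (NN v) := (cont_nn hv).norm

theorem cont_nu (hv : Sol v) (hN : 0 < NN v x) : ContinuousAt (nu v) x :=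
  ((cont_NN hv).continuousAt.inv₀ hN.ne').smul (cont_nn hv).continuousAt

/-- from "`Fit y r'` forces `r' ≤ R y`" to `rt ≤ R` -/
theorem rt_le_of (hv : Sol v) (ρm : ℝ) (cR : ContinuousAt R x) (hR : R x = r) (hd : |dd v x| < r)
    (h : ∀ᶠ q : EE n × ℝ in 𝓝 (x, r), Fit β v q.1 q.2 → q.2 ≤ R q.1) :
    ∀ᶠ y in 𝓝 x, rt β v ρm y ≤ R y := by
  have h1 : ∀ᶠ q : EE n × ℝ in 𝓝 (x, r), |dd v q.1| < q.2 :=
    ContinuousAt.eventually_lt (f := fun q : EE n × ℝ => |dd v q.1|)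
      (hv.dd_sm.continuous.comp continuous_fst).abs.continuousAt continuousAt_snd hd
  have h2 : Tendsto (fun q : EE n × ℝ => (q.1, R q.1 + q.2)) (𝓝 (x, 0)) (𝓝 (x, r)) := by
    have := continuousAt_fst.prodMk ((cR.comp_of_eq (continuousAt_fst (p := (x, (0 : ℝ)))) rfl).add
      continuousAt_snd)
    simpa [ContinuousAt, hR] using this
  have h3 := h2.eventually (h.and h1)
  rw [nhds_prod_eq] at h3
  refine h3.curry.mono fun y hy => ge_of_tendsto (x := 𝓝[>] 0) (f := fun s => R y + s)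
    ((Continuous.tendsto' (by fun_prop) 0 _ (by simp)).mono_left nhdsWithin_le_nhds) ?_
  filter_upwards [mem_nhdsWithin_of_mem_nhds hy, self_mem_nhdsWithin] with s h4 h5
  exact rt_le h4.2 fun hf => by linarith [h4.1 hf, show 0 < s from h5]

/-- the paraboloid of the core point `η om` is the ball paraboloid -/
theorem PP_ball (hN : 0 < NN v y) (hL : dd v y < r) (ho : ‖om‖ = 1) (hs : β.η * r ≤ s)
    (hp : p = (r - dd v y) • nu v y + s • om) : PP β v y r (β.η • om) (y + p) =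
      dd v y + fderiv ℝ (dd v) y p - NN v y / (r - dd v y) / 2 * ‖p‖ ^ 2 := by
  have h1 : y + p - cen v y r (β.η • om) = (s - β.η * r) • om := by rw [hp, cen]; module
  have h2 : fderiv ℝ (dd v) y p = NN v y * ⟪nu v y, p⟫ := by
    rw [← inner_grad, ← real_inner_smul_left, ← nn_eq hN]; rfl
  have h3 := (sub_pos.2 hL).ne'
  rw [PP, h1, norm_smul, ho, Real.norm_of_nonneg (sub_nonneg.2 hs), h2, hp, gp, norm_add_sq_real,
    inner_add_right]
  simp only [real_inner_smul_left, real_inner_smul_right, real_inner_self_eq_norm_sq, norm_smul,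
    mul_pow, Real.norm_eq_abs, sq_abs, norm_nu hN, ho]
  field_simp
  ring

theorem ev_tay (hv : Sol v) (hN : 0 < NN v x) (hL : dd v x < r) (ho : ‖om‖ = 1)
    (hs : β.η * r < s) (s0 : 0 < s) (hp : p = (r - dd v x) • nu v x + s • om)
    (hw : ‖β.η • om + (3 : ℝ) • nu v x‖ < 3 + β.η - β.h) :
    ∀ᶠ q : (EE n × ℝ) × EE n in 𝓝 ((x, r), p), dd v q.1.1 < q.1.2 ∧ (Fit β v q.1.1 q.1.2 →
      tay (dd v) q.2 q.1.1 ≤ NN v q.1.1 / (q.1.2 - dd v q.1.1) / 2 * ‖q.2‖ ^ 2) := by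
  have cy : Continuous fun q : (EE n × ℝ) × EE n => q.1.1 := continuous_fst.fst
  have cr : Continuous fun q : (EE n × ℝ) × EE n => q.1.2 := continuous_fst.snd
  have cd := hv.dd_sm.continuous.comp' cy
  have c1 : ContinuousAt (fun q : (EE n × ℝ) × EE n => nu v q.1.1) ((x, r), p) :=
    (cont_nu hv hN).comp_of_eq cy.continuousAt rfl
  obtain ⟨u, hu⟩ : ∃ u : (EE n × ℝ) × EE n → EE n,
    u = fun q => q.2 - (q.1.2 - dd v q.1.1) • nu v q.1.1 := ⟨_, rfl⟩
  have c2 : ContinuousAt u ((x, r), p) :=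
    hu ▸ continuousAt_snd.sub ((cr.sub cd).continuousAt.smul c1)
  have u0 : u ((x, r), p) = s • om := by simp only [hu, hp, add_sub_cancel_left]
  have u1 : ‖u ((x, r), p)‖ = s := by rw [u0, norm_smul, ho, mul_one, Real.norm_of_nonneg s0.le]
  have c3 : ContinuousAt (fun q => ‖β.η • ‖u q‖⁻¹ • u q + (3 : ℝ) • nu v q.1.1‖) ((x, r), p) := by
    have c4 : ContinuousAt (fun q => ‖u q‖⁻¹) ((x, r), p) := c2.norm.inv₀ (u1 ▸ s0.ne')
    have c5 : ContinuousAt (fun q => β.η • ‖u q‖⁻¹ • u q) ((x, r), p) :=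
      (c4.smul c2).const_smul β.η
    exact (c5.add (c1.const_smul (3 : ℝ))).norm
  have a1 := c3.eventually_lt (continuousAt_const (y := 3 + β.η - β.h)) (by
      simp only [u1]; rw [u0, smul_smul s⁻¹, inv_mul_cancel₀ s0.ne', one_smul]; exact hw)
  have a2 := (cr.const_mul β.η).continuousAt.eventually_lt c2.norm (hs.trans_eq u1.symm)
  have a3 := (continuousAt_const (y := (0 : ℝ))).eventually_lt c2.norm (s0.trans_eq u1.symm)
  have a4 := cd.continuousAt.eventually_lt (cr.continuousAt (x := ((x, r), p))) hL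
  have a5 := (continuousAt_const (y := (0 : ℝ))).eventually_lt
    (((cont_NN hv).comp' cy).continuousAt (x := ((x, r), p))) hN
  filter_upwards [a1, a2, a3, a4, a5] with q h1 h2 h3 h4 h5
  have h6 : ‖‖u q‖⁻¹ • u q‖ = 1 := norm_smul_inv_norm (𝕜 := ℝ) (norm_pos_iff.1 h3)
  refine ⟨h4, fun hf => ?_⟩
  have h7 := hf (β.η • ‖u q‖⁻¹ • u q) ⟨by
    rw [norm_smul, h6, mul_one, Real.norm_of_nonneg β.η0.le], h1.le⟩ (q.1.1 + q.2)
  rw [PP_ball h5 h4 h6 h2.le (by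
    rw [smul_smul, mul_inv_cancel₀ h3.ne', one_smul]; simp only [hu, add_sub_cancel])] at h7
  rw [tay]; linarith

/-- the standing hypotheses at an active point -/
structure At (β : Bo) (v : EE n → ℝ) (ρm δ : ℝ) (x : EE n) (r : ℝ) : Prop where
  sol : Sol v
  eq : rt β v ρm x = r
  one : 1 ≤ r
  δ1 : δ ≤ 1 / 4
  hd : |dd v x| ≤ δ * r
  ht : r * tt v x ≤ δ
  fit : Fit β v x r

namespace At

variable (h : At β v ρm δ x r)
include h

theorem r0 : 0 < r := by linarith [h.one]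
theorem t1 : tt v x ≤ δ := by nlinarith [h.one, h.ht, h.sol.tt_nonneg x]
theorem N1 : 3 / 4 ≤ NN v x := by linarith [one_sub_NN h.sol x, h.t1, h.δ1]
theorem N0 : 0 < NN v x := by linarith [h.N1]
theorem L1 : 3 / 4 * r ≤ r - dd v x := by nlinarith [(abs_le.1 h.hd).2, h.δ1, h.one]
theorem L2 : r - dd v x ≤ 5 / 4 * r := by nlinarith [(abs_le.1 h.hd).1, h.δ1, h.one]
theorem L0 : 0 < r - dd v x := by linarith [h.L1, h.one]
theorem d1 : |dd v x| < r := by nlinarith [h.hd, h.δ1, h.one]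
theorem c0 : 0 < NN v x / (r - dd v x) := div_pos h.N0 h.L0

theorem tc : tt v x ≤ √2 * (NN v x / (r - dd v x)) := by
  have h1 : 1 ≤ √2 := Real.one_le_sqrt.2 one_le_two
  refine le_trans ?_ (le_mul_of_one_le_left h.c0.le h1)
  rw [le_div_iff₀ h.L0]
  nlinarith [h.L2, h.ht, h.δ1, h.N1, h.sol.tt_nonneg x]

theorem ev0 : ∀ᶠ q : EE n × ℝ in 𝓝 (x, r), dd v q.1 < q.2 ∧ (Fit β v q.1 q.2 →
    ∀ᶠ p in 𝓝 0, tay (dd v) p q.1 ≤ NN v q.1 / (q.2 - dd v q.1) / 2 * ‖p‖ ^ 2) := by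
  have h1 := ev_tay (β := β) (om := -nu v x) (r := r) (s := r - dd v x) (p := 0) h.sol h.N0
    (by linarith [h.L0]) (by rw [norm_neg, norm_nu h.N0]) (by nlinarith [h.L1, h.one, β.η1]) h.L0
    (by simp) (by
      rw [show β.η • -nu v x + (3 : ℝ) • nu v x = (3 - β.η) • nu v x by module, norm_smul,
        norm_nu h.N0, Real.norm_of_nonneg (by linarith [β.η1])]
      linarith [β.h1, β.η0])
  rw [nhds_prod_eq] at h1
  exact h1.curry.mono fun q hq => ⟨hq.self_of_nhds.1, fun hf => hq.mono fun p hp => hp.2 hf⟩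

theorem short : ∀ᶠ p in 𝓝 0, tay (dd v) p x ≤ NN v x / (r - dd v x) / 2 * ‖p‖ ^ 2 :=
  h.ev0.self_of_nhds.2 h.fit

theorem psd (a : EE n) : 0 ≤ hb (dd v) x a a + NN v x / (r - dd v x) * ‖a‖ ^ 2 :=
  hb_add_nonneg' h.sol.dd_sm h.short a

theorem rr_eq (hF : F x = NN v x / (r - dd v x)) : rr v F x = r := by
  have := h.N0
  have := h.L0
  rw [rr, hF]
  change _ + NN v x / _ = _
  field_simp; ring

theorem rt_le_rr (cF : ContDiffAt ℝ 2 F x) (hF : F x = NN v x / (r - dd v x))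
    (h1 : ∀ᶠ q : EE n × ℝ in 𝓝 (x, r), Fit β v q.1 q.2 → F q.1 ≤ NN v q.1 / (q.2 - dd v q.1)) :
    ∀ᶠ y in 𝓝 x, rt β v ρm y ≤ rr v F y := by
  have h0 : 0 < F x := hF ▸ h.c0
  refine rt_le_of h.sol ρm (rr_c2 h.sol h.N0 cF h0.ne').continuousAt (h.rr_eq hF) h.d1 ?_
  filter_upwards [h1, h.ev0, continuousAt_const.eventually_lt (g := fun q : EE n × ℝ => F q.1)
    (cF.continuousAt.comp_of_eq (continuousAt_fst (p := (x, r))) rfl) h0] with q h2 h3 h4 hf
  have h5 := h2 hf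
  rw [le_div_iff₀ (sub_pos.2 h3.1), mul_comm, ← le_div_iff₀ h4] at h5
  exact sub_le_iff_le_add'.1 h5

/-- the degenerate support -/
theorem deg (he : ‖e‖ = 1) (hb' : hb (dd v) x e e = -(NN v x / (r - dd v x))) :
    ∃ F, ContDiffAt ℝ 2 F x ∧ F x = NN v x / (r - dd v x) ∧
      (∀ᶠ y in 𝓝 x, rt β v ρm y ≤ rr v F y) ∧ ∀ a, -qq v x * F x - 2 * √2 * v x * F x ^ 2 + 0
        + (4 * fderiv ℝ F x a - 2 * (hb (dd v) x a a + F x * ‖a‖ ^ 2)) ≤ Lm v F x := by
  obtain ⟨E, F, -, -, h1, h2, h3, -, h4⟩ := Deg.x1' ⟨he, hb', h.short⟩ h.sol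
  refine ⟨F, h2, h3, h.rt_le_rr h2 h3 (h.ev0.mono fun q hq hf => ?_), fun a => ?_⟩
  · rw [h1]
    exact ray_le h.sol.dd_sm (div_nonneg (NN_nonneg _ _) (sub_pos.2 hq.1).le) (hq.2 hf) _
  · rw [h3]; linarith [h4 a, Deg.src_nonneg h.sol h.tc e]

/-- the far support -/
theorem far (ho : ‖om‖ = 1) (hs : β.η * r < s) (hp : p = (r - dd v x) • nu v x + s • om)
    (hw : ‖β.η • om + (3 : ℝ) • nu v x‖ < 3 + β.η - β.h) (p0 : p ≠ 0)
    (h1 : dd v (x + p) = PP β v x r (β.η • om) (x + p))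
    (h2 : nn v (x + p) = -(NN v x / (r - dd v x) * s) • om) :
    ∃ F, ContDiffAt ℝ 2 F x ∧ F x = NN v x / (r - dd v x) ∧
      (∀ᶠ y in 𝓝 x, rt β v ρm y ≤ rr v F y) ∧
      (∀ a, fderiv ℝ F x a = 2 / ‖p‖ ^ 2 * (hb (dd v) x p a + F x * ⟪p, a⟫)) ∧
      ∀ a, -qq v x * F x - 2 * √2 * v x * F x ^ 2 + 0
        + (4 * fderiv ℝ F x a - 2 * (hb (dd v) x a a + F x * ‖a‖ ^ 2)) ≤ Lm v F x := by
  have L0 := h.L0
  have hF : Far v (NN v x / (r - dd v x)) p x := ⟨p0, by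
    rw [tay, h1, PP_ball h.N0 (by linarith) ho hs.le hp]; ring, by
    change nn v (x + p) = nn v x - _
    rw [h2, nn_eq h.N0, hp]
    match_scalars <;> field_simp
    ring⟩
  obtain ⟨P, F, cP, Px, h3, h4, h5, h6, h7⟩ := hF.x1 h.sol
  have t1 : Tendsto (fun q : EE n × ℝ => (q, P q.1)) (𝓝 (x, r)) (𝓝 ((x, r), p)) :=
    Continuous.tendsto' (by fun_prop) _ _ (by simp [Px])
  refine ⟨F, h4, h5, h.rt_le_rr h4 h5 ((t1.eventually (ev_tay h.sol h.N0 (by linarith) ho hs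
    ((mul_pos β.η0 h.r0).trans hs) hp hw)).mono fun q hq hf => ?_), by rwa [h5], fun a => ?_⟩
  · have h8 := hq.2 hf
    have h9 : 0 ≤ NN v q.1 / (q.2 - dd v q.1) := div_nonneg (NN_nonneg _ _) (sub_pos.2 hq.1).le
    rw [h3, Zf, div_mul_eq_mul_div]
    exact div_le_of_le_mul₀ (sq_nonneg _) h9 (by simp only at h8; linarith)
  · rw [h5, h6, h7]
    linarith [kato_far (c2_of h.sol.dd_sm x) h.psd p a, hF.Ef_nonneg h.sol h.tc]

end At

end

end Crest.Agent.N067.M.Bl
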