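import Crest.Agent.N067.V.BallM
import Crest.Agent.N067.X0.Cont

/-!
# Row 67 (helper55): ball and degenerate contacts on `M.Defs`, part 2 (outputs)
-/

set_option autoImplicit false

open MeasureTheory Laplacian InnerProductSpace Topology Filter Set Metric
open scoped RealInnerProductSpace ContDiff Gradient NNReal

namespace Crest.Agent.N067.M.Bl

open Crest.Agent.R077 Crest.Agent.N067.V Wd

noncomputable section

variable {n : ℕ} {β : Bo} {v F R : EE n → ℝ} {x y p w z om e g ν u : EE n} {r s ρm δ ε ηt C σ : ℝ}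

open Classical in
/-- the `R`-form of the second order inequality -/
def RF (β : Bo) (v : EE n → ℝ) (ρm ε ηt C : ℝ) (x : EE n) (r : ℝ) (g : EE n) : Prop :=
  ∀ e > 0, ∃ R : EE n → ℝ, ContDiffAt ℝ 2 R x ∧ R x = r ∧ (∀ᶠ y in 𝓝 x, rt β v ρm y ≤ R y) ∧
    ∇ R x = g ∧ ∀ a, Lm v R x ≤ r * (if r * Bn v x ≤ ηt then 0 else (1 + ε) * hsq (dd v) x)
      + (2 + ε) * ‖g‖ ^ 2 / r + 4 * ⟪g, a⟫ + 2 * r ^ 2 * hb (dd v) x a a
      + 2 * (1 + ε) * r * ‖a‖ ^ 2 + C * r * tt v x ^ 2 + e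

/-- the first order facts at a thin contact -/
def TL (β : Bo) (v : EE n → ℝ) (ε C : ℝ) (x : EE n) (r : ℝ) (g om z : EE n) : Prop :=
  ‖(NN v z / NN v x) • om - nu v x‖ ≤ C * (‖g‖ + tt v x) ∧ (0 ≤ ⟪om, nu v x⟫ → ‖g‖ ≤ C ∧
    |⟪g, nu v x⟫| ≤ C * (tt v z + r * tt v x) ∧
    ⟪g, nu v x⟫ ≤ C * r * tt v x * (‖om - nu v x‖ + tt v x + tt v z) ∧
    (‖om - nu v x‖ < √(β.η * β.h) / 10 → -⟪g, nu v x⟫ ≤ (1 + ε) * (tt v x + tt v z) / 4 +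
      C * tt v z ^ 2 + C * r * tt v x * (‖om - nu v x‖ + tt v x + tt v z)))

theorem RF.mono (h : RF β v ρm ε ηt C x r g) {C' : ℝ} (hC : C ≤ C') (r0 : 0 ≤ r) :
    RF β v ρm ε ηt C' x r g := fun e he =>
  let ⟨R, h1, h2, h3, h4, h5⟩ := h e he
  ⟨R, h1, h2, h3, h4, fun a => (h5 a).trans (by gcongr)⟩

theorem TL.mono (h : TL β v ε C x r g om z) (hv : Sol v) {C' : ℝ} (hC : C ≤ C') (r0 : 0 ≤ r) :
    TL β v ε C' x r g om z := by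
  have := hv.tt_nonneg x
  have := hv.tt_nonneg z
  refine ⟨h.1.trans (by gcongr), fun h1 => ?_⟩
  obtain ⟨h2, h3, h4, h5⟩ := h.2 h1
  exact ⟨h2.trans hC, h3.trans (by gcongr), h4.trans (by gcongr),
    fun h6 => (h5 h6).trans (by gcongr)⟩

theorem refl_norm (hν : ‖ν‖ = 1) (hw : w ≠ 0) :
    ‖ν - (2 / ‖w‖ ^ 2) • w‖ * ‖w‖ = ‖w - (2 : ℝ) • ν‖ := by
  have := norm_pos_iff.2 hw
  refine (sq_eq_sq₀ (by positivity) (norm_nonneg _)).1 ?_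
  simp only [mul_pow, norm_sub_sq_real, real_inner_smul_right, norm_smul, hν, Real.norm_eq_abs,
    sq_abs, real_inner_comm ν w]
  field_simp

theorem thin_real {t k θ c U G W X B un bn gn N : ℝ} (s1 : 3 / 4 ≤ σ) (s2 : σ ≤ 4 / 3)
    (n0 : 0 ≤ 1 - N) (n1 : 1 - N ≤ t) (t1 : t ≤ 1 / 4) (U0 : 0 ≤ U) (W0 : 0 < W) (X0 : 0 ≤ X)
    (h1 : U * W = X) (h2 : W ≤ 1 + σ) (h2' : X ≤ σ + 1) (h4 : U ≤ G + t + B) (h4' : G ≤ t + (U + B))
    (b1 : B ≤ U / 50) (b2 : |bn| ≤ k * U) (k0 : 0 ≤ k) (hθ : θ ≤ 1 - c) (c1 : c ≤ 1)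
    (h6 : X ^ 2 = σ ^ 2 - 2 * σ * c + 1) (h7 : W ^ 2 = σ ^ 2 + 2 * σ * c + 1)
    (e1 : un = 1 - 2 / W ^ 2 * (1 + σ * c)) (e2 : gn = -(1 - N) + (un + bn)) :
    X ≤ 3 * (G + t) ∧ θ ≤ 18 * (G ^ 2 + t ^ 2) ∧ (0 ≤ c → G ≤ 3 ∧
      |gn| ≤ t + |σ ^ 2 - 1| + 3 * k ∧ gn ≤ max (σ ^ 2 - 1) 0 + 3 * k) := by
  have h5 : X ≤ 3 * (G + t) := by nlinarith only [h1, h2, h4, b1, U0, s2]
  refine ⟨h5, ?_, fun hc => ?_⟩
  · nlinarith only [pow_le_pow_left₀ X0 h5 2, sq_nonneg (1 - σ), sq_nonneg (G - t), h6, hθ, s1,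
      mul_nonneg (sub_nonneg.2 s1) (sub_nonneg.2 c1), c1]
  have h8 : 1 ≤ W ^ 2 := by nlinarith only [h7, hc, s1]
  have h9 : U ≤ 7 / 3 := by
    have a1 : 1 ≤ W := by nlinarith only [h8, W0]
    nlinarith only [a1, h1, h2', U0, s2]
  have e1' : un = (σ ^ 2 - 1) / W ^ 2 := by
    rw [e1, eq_div_iff (by positivity), sub_mul, mul_right_comm, div_mul_cancel₀ _ (by positivity),
      h7]
    ring
  have e3 : |un| ≤ |σ ^ 2 - 1| := by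
    rw [e1', abs_div, abs_of_pos (pow_pos W0 2)]
    exact div_le_self (abs_nonneg _) h8
  have e4 : un ≤ max (σ ^ 2 - 1) 0 := e1' ▸ (div_le_div_of_nonneg_right (le_max_left _ _)
    (by positivity)).trans (div_le_self (le_max_right _ _) h8)
  have e5 : |bn| ≤ 3 * k := b2.trans (by nlinarith only [h9, k0])
  refine ⟨by linarith, ?_, by linarith [le_abs_self bn]⟩
  rw [e2, abs_le]
  constructor <;> linarith [abs_le.1 e5, neg_abs_le un, le_abs_self un]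

/-- the geometry of the gradient at a thin ball contact -/
theorem thin_geo {N t k θ : ℝ} {b : EE n} (hν : ‖ν‖ = 1) (ho : ‖om‖ = 1) (s1 : 3 / 4 ≤ σ)
    (s2 : σ ≤ 4 / 3) (n0 : 0 ≤ 1 - N) (n1 : 1 - N ≤ t) (t1 : t ≤ 1 / 4) (hw : ν + σ • om ≠ 0)
    (hu : u = ν - (2 / ‖ν + σ • om‖ ^ 2) • (ν + σ • om)) (hg : g = -(1 - N) • ν + (u + b))
    (b1 : ‖b‖ ≤ ‖u‖ / 50) (b2 : |⟪b, ν⟫| ≤ k * ‖u‖) (k0 : 0 ≤ k) (hθ : θ ≤ 1 - ⟪om, ν⟫) :
    ‖σ • om - ν‖ ≤ 3 * (‖g‖ + t) ∧ θ ≤ 18 * (‖g‖ ^ 2 + t ^ 2) ∧ (0 ≤ ⟪om, ν⟫ → ‖g‖ ≤ 3 ∧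
      |⟪g, ν⟫| ≤ t + |σ ^ 2 - 1| + 3 * k ∧ ⟪g, ν⟫ ≤ max (σ ^ 2 - 1) 0 + 3 * k) := by
  have h1 := refl_norm hν hw
  rw [← hu, show ν + σ • om - (2 : ℝ) • ν = σ • om - ν by module] at h1
  have σ0 : ‖σ • om‖ = σ := by rw [norm_smul, ho, mul_one, Real.norm_of_nonneg (by linarith)]
  have h3 : ‖-(1 - N) • ν‖ ≤ t := by
    rw [norm_smul, hν, mul_one, norm_neg, Real.norm_of_nonneg n0]; exact n1
  have a1 : g - -(1 - N) • ν - b = u := by rw [hg]; abel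
  refine thin_real (un := ⟪u, ν⟫) s1 s2 n0 n1 t1 (norm_nonneg u) (norm_pos_iff.2 hw) (norm_nonneg _)
    h1 ((norm_add_le _ _).trans_eq (by rw [hν, σ0])) ((norm_sub_le _ _).trans_eq (by rw [hν, σ0]))
    ((a1 ▸ norm_sub_le (g - -(1 - N) • ν) b).trans (add_le_add_left
      ((norm_sub_le _ _).trans (add_le_add_right h3 _)) _))
    (hg ▸ (norm_add_le _ _).trans (add_le_add h3 (norm_add_le _ _))) b1 b2 k0 hθ
    (by simpa [ho, hν] using real_inner_le_norm om ν)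
    (by rw [norm_sub_sq_real, σ0, hν, real_inner_smul_left]; ring)
    (by rw [norm_add_sq_real, σ0, hν, real_inner_smul_right, real_inner_comm]; ring) ?_ ?_
  · rw [hu, inner_sub_left, real_inner_smul_left, inner_add_left, real_inner_smul_left,
      real_inner_self_eq_norm_sq, hν, one_pow]
  · rw [hg, inner_add_left, inner_add_left, real_inner_smul_left, real_inner_self_eq_norm_sq, hν]
    ring

theorem At.inv_c (h : At β v ρm δ x r) : (NN v x / (r - dd v x))⁻¹ ≤ 2 * r := by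
  rw [inv_div, div_le_iff₀ h.N0]; nlinarith [h.L2, h.N1, h.one]

/-- **degenerate contacts** -/
theorem degS (n : ℕ) (hε : 0 < ε) : ∃ δ C : ℝ, 0 < δ ∧ δ ≤ 1 / 4 ∧ 0 ≤ C ∧
    ∀ (β : Bo) (v : EE n → ℝ) (ρm r ηt : ℝ) (x : EE n), At β v ρm δ x r → ηt ≤ 1 / 100 →
      NN v x / (r - dd v x) * r ≤ 1 + ε ∧ ∀ e, Deg v (NN v x / (r - dd v x)) e x →
        ¬ r * Bn v x ≤ ηt ∧ ∃ g, RF β v ρm ε ηt C x r g := by
  obtain ⟨δ, C, h0, -, hC, H⟩ := ball_R n hε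
  obtain ⟨δ', d0, d1⟩ : ∃ δ' > 0, δ' ≤ min δ (min (1 / 4) (ε / 2)) := ⟨_, by positivity, le_rfl⟩
  simp only [le_min_iff] at d1
  refine ⟨δ', C, d0, d1.2.1, hC, fun β v ρm r ηt x h ht => ⟨?_, fun e he => ?_⟩⟩
  · have := (ratios (L := r - dd v x) d0 h.δ1 h.r0 (by ring) h.hd h.t1 h.N0 (NN_le h.sol x)
      (gN_sq v x)).2.2.2.2.2.2
    linarith
  have h1 : ¬ r * Bn v x ≤ ηt := fun h1 => by
    have h2 := abs_hb_le h.sol x e e
    rw [he.eq, he.unit, abs_neg, abs_of_pos h.c0, mul_one, mul_one, div_le_iff₀ h.L0] at h2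
    nlinarith [h.L2, h.N1, Real.sqrt_nonneg (hsq (dd v) x), show Bn v x = √(hsq (dd v) x) from rfl]
  obtain ⟨F, cF, hF, h2, h3⟩ := h.deg he.unit he.eq
  obtain ⟨-, -, h4⟩ := H v F x _ r 0 h.sol cF rfl (hF ▸ h.c0) (h.rr_eq hF) h.one
    (h.hd.trans (mul_le_mul_of_nonneg_right d1.1 h.r0.le)) (h.t1.trans d1.1) le_rfl
    (hF ▸ h.psd) h3
  exact ⟨h1, _, fun e he => ⟨rr v F, rr_c2 h.sol h.N0 cF (hF ▸ h.c0.ne'), h.rr_eq hF, h2, rfl,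
    fun a => by rw [if_neg h1]; linarith [h4 a]⟩⟩

theorem sig_bd (h : At β v ρm δ x r) (s1 : 3 / 4 * NN v x ≤ NN v z) (hσ : σ = NN v z / NN v x) :
    3 / 4 ≤ σ ∧ σ ≤ 4 / 3 ∧ |σ ^ 2 - 1| ≤ 2 * (tt v x + tt v z) ∧
      max (σ ^ 2 - 1) 0 ≤ 2 * tt v x := by
  have N0 := h.N0
  have tx := h.sol.tt_nonneg x
  have tz := h.sol.tt_nonneg z
  have σ3 : σ ^ 2 - 1 = (tt v x - tt v z) / NN v x ^ 2 := by
    rw [hσ, div_pow, show NN v z ^ 2 = _ from gN_sq v z, div_sub_one (by positivity),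
      show NN v x ^ 2 = _ from gN_sq v x]
    ring
  have n2 : 1 / 2 ≤ NN v x ^ 2 := by nlinarith [h.N1]
  refine ⟨by rwa [hσ, le_div_iff₀ N0], by rw [hσ, div_le_iff₀ N0]; linarith [h.N1, NN_le h.sol z],
    ?_, max_le (by rw [σ3, div_le_iff₀ (pow_pos N0 2)]; nlinarith) (by positivity)⟩
  rw [σ3, abs_div, abs_of_pos (pow_pos N0 2), div_le_iff₀ (pow_pos N0 2), abs_le]
  constructor <;> nlinarith

theorem cu1_le_cu0 (β : Bo) : X0.cu1 β ≤ X0.cu0 β := by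
  have := X0.cu1_lt β
  rw [← sub_le_sub_iff_left 1, X0.one_sub_cu0, div_le_iff₀ (by linarith [X0.ga_ge β])]
  rw [div_le_iff₀ β.η0] at this
  have h1 : 0 ≤ 1 - X0.cu1 β := by nlinarith [β.η0, β.h0]
  have h2 : β.h * (2 * β.η) ≤ (1 - X0.cu1 β) * β.η * (2 * β.η) :=
    mul_le_mul_of_nonneg_right this (by linarith [β.η0])
  have h3 : β.η * (2 * β.η) ≤ 6 * X0.ga β := by nlinarith [X0.ga_ge β, β.η1, β.η0]
  nlinarith [mul_le_mul_of_nonneg_left h3 h1, sq_nonneg β.h]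

/-- the gradient at a far ball contact -/
theorem ball_grad (n : ℕ) : ∃ K : ℝ, 0 ≤ K ∧ ∀ (β : Bo) (v F : EE n → ℝ) (ρm δ r σ θ : ℝ)
    (x om p : EE n), At β v ρm δ x r → ‖om‖ = 1 → 3 / 4 ≤ σ → σ ≤ 4 / 3 → p ≠ 0 →
      p = (r - dd v x) • nu v x + (σ * (r - dd v x)) • om → ContDiffAt ℝ 2 F x →
      F x = NN v x / (r - dd v x) →
      (∀ a, fderiv ℝ F x a = 2 / ‖p‖ ^ 2 * (hb (dd v) x p a + F x * ⟪p, a⟫)) →
      θ ≤ 1 - ⟪om, nu v x⟫ → r * Bn v x ≤ 1 / 100 → ∀ g, ∇ (rr v F) x = g →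
      ‖σ • om - nu v x‖ ≤ 3 * (‖g‖ + tt v x) ∧ θ ≤ 18 * (‖g‖ ^ 2 + tt v x ^ 2) ∧
      (0 ≤ ⟪om, nu v x⟫ → ‖g‖ ≤ 3 ∧ |⟪g, nu v x⟫| ≤ tt v x + |σ ^ 2 - 1| + 3 * (2 * r * (K * tt v x))
        ∧ ⟪g, nu v x⟫ ≤ max (σ ^ 2 - 1) 0 + 3 * (2 * r * (K * tt v x))) := by
  obtain ⟨K, hK, hm⟩ := exists_grad_gN n
  refine ⟨K, hK, fun β v F ρm δ r σ θ x om p h ho σ1 σ2 p0 hp cF hF h3 c3 hB g hgd => ?_⟩
  have N0 := h.N0
  have L0 := h.L0
  have r0 := h.r0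
  have tx := h.sol.tt_nonneg x
  have hp' : p = (r - dd v x) • (nu v x + σ • om) := by rw [hp]; module
  have w0 : nu v x + σ • om ≠ 0 := fun h0 => p0 (by rw [hp', h0, smul_zero])
  obtain ⟨u, hu⟩ : ∃ u, u = nu v x - (2 / ‖nu v x + σ • om‖ ^ 2) • (nu v x + σ • om) := ⟨_, rfl⟩
  have hg := grad_rr_far h.sol N0 cF rfl (hF ▸ h.c0) p0 h3 (u := u) (by
      have := norm_pos_iff.2 w0
      rw [hu, hF, hp', norm_smul, Real.norm_of_nonneg L0.le, smul_smul]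
      congr 2
      change _ = 2 * NN v x / _ * _
      field_simp)
  have ci := h.inv_c
  refine thin_geo (b := (F x)⁻¹ • hop (dd v) x u) (norm_nu N0) ho σ1 σ2 (one_sub_gN h.sol x).1
    (one_sub_gN h.sol x).2 (h.t1.trans h.δ1) w0 hu ?_ ?_ ?_ (by positivity) c3
  · rw [← hgd, hg, nu, smul_smul, neg_mul, ← div_eq_mul_inv]; rfl
  · rw [norm_smul, hF, Real.norm_of_nonneg (inv_pos.2 h.c0).le]
    refine (mul_le_mul ci (norm_hop h.sol x u) (norm_nonneg _) (by positivity)).trans ?_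
    rw [← mul_assoc, div_eq_inv_mul]
    exact mul_le_mul_of_nonneg_right (by linarith) (norm_nonneg u)
  · rw [real_inner_smul_left, abs_mul, hF, abs_of_pos (inv_pos.2 h.c0), mul_assoc _ (K * _),
      inner_hop, hb_symm (c2_of h.sol.dd_sm x), nu, map_smul, smul_apply, smul_eq_mul]
    refine mul_le_mul ci ?_ (abs_nonneg _) (by positivity)
    rw [show hb (dd v) x (nn v x) u = NN v x * _ from hb_n h.sol N0 u, inv_mul_cancel_left₀ N0.ne']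
    exact (abs_real_inner_le_norm _ u).trans (mul_le_mul_of_nonneg_right
      (hm v h.sol x (le_trans (by norm_num) h.N1)) (norm_nonneg u))

theorem thin_pot {B G t θ : ℝ} (hε : 0 < ε) (r1 : 1 ≤ r) (B0 : 0 ≤ B) (hB : r * B ≤ ηt)
    (t1 : ηt ≤ 1 / 100) (t2 : ηt ≤ θ * ε / (36 * (1 + ε))) (h : θ ≤ 18 * (G ^ 2 + t ^ 2)) :
    r * ((1 + ε) * B ^ 2) ≤ ε / 2 * (G ^ 2 / r) + ε * (r * t ^ 2) := by
  have r0 : 0 < r := by linarith
  have b0 := mul_nonneg r0.le B0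
  have b1 : (r * B) ^ 2 ≤ θ * ε / (36 * (1 + ε)) := by nlinarith
  rw [mul_pow, le_div_iff₀ (by positivity)] at b1
  have b2 := mul_le_mul_of_nonneg_right h hε.le
  have b3 : r * ((1 + ε) * B ^ 2) ≤ ε / 2 * (G ^ 2 / r) + ε / 2 * (t ^ 2 / r) := by
    rw [← mul_add, ← add_div, ← mul_div_assoc, le_div_iff₀ r0]; linarith
  exact b3.trans (add_le_add_right (mul_le_mul (by linarith) ((div_le_self (sq_nonneg _) r1).trans
    (le_mul_of_one_le_left (sq_nonneg _) r1)) (by positivity) hε.le) _)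

/-- **far ball contacts** -/
theorem ballS (n : ℕ) (hε : 0 < ε) (β : Bo) : ∃ η0 δ C : ℝ, 0 < η0 ∧ 0 < δ ∧ δ ≤ 1 / 4 ∧ 0 ≤ C ∧
    ∀ (v : EE n → ℝ) (ρm r ηt y : ℝ) (x w om z : EE n), At β v ρm δ x r → ηt ≤ η0 →
      X0.Con β v x r w om z y → 3 / 4 * NN v x ≤ NN v z → ⟪om, nu v x⟫ < X0.cu1 β → w = β.η • om →
      ‖w + (3 : ℝ) • nu v x‖ < 3 + β.η - β.h →
      ∃ g, RF β v ρm ε ηt C x r g ∧ (r * Bn v x ≤ ηt → TL β v ε C x r g om z) := by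
  obtain ⟨δ, C, h0, h0', hC, H⟩ := ball_R n (half_pos hε)
  obtain ⟨K, hK, hm⟩ := ball_grad n
  obtain ⟨θ, hθ⟩ : ∃ θ, θ = β.h / β.η := ⟨_, rfl⟩
  have θ0 : 0 < θ := hθ ▸ div_pos β.h0 β.η0
  have θ1 : θ ≤ 1 := by linarith [X0.cu1_ge β, X0.cu1_lt β]
  have C1 : 3 + 6 * K ≤ (3 + 6 * K) / θ := le_div_self (by positivity) θ0 θ1
  refine ⟨min (1 / 100) (θ * ε / (36 * (1 + ε))), δ, C + ε + (3 + 6 * K) / θ, by positivity, h0,
    h0', by positivity, fun v ρm r ηt y x w om z h t1 hc s1 c1 hw c2 => ?_⟩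
  obtain ⟨t1, t2⟩ := le_min_iff.1 t1
  have N0 := h.N0
  have L0 := h.L0
  have r0 := h.r0
  have tx := h.sol.tt_nonneg x
  have tz := h.sol.tt_nonneg z
  obtain ⟨σ, hσ⟩ : ∃ σ, σ = NN v z / NN v x := ⟨_, rfl⟩
  obtain ⟨σ1, σ2, σ4, σ5⟩ := sig_bd h s1 hσ
  have hp : z - x = (r - dd v x) • nu v x + (σ * (r - dd v x)) • om := by
    rw [← sub_eq_iff_eq_add', (hc.tay_eq hw).1, hc.y_eq, hσ, sub_add_cancel]
  have p0 := sub_ne_zero.2 hc.ne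
  obtain ⟨F, cF, hF, h2, h3, h4⟩ := h.far hc.cone.unit (by
    have := hc.ypos; rw [hc.y_eq, ← hσ] at this; linarith) hp (hw ▸ c2) p0
    (by rw [add_sub_cancel, ← hw, hc.eq]) (by
      rw [add_sub_cancel, hc.grad, hσ]; congr 2; field_simp)
  obtain ⟨-, -, h5⟩ := H v F x _ r 0 h.sol cF rfl (hF ▸ h.c0) (h.rr_eq hF) h.one h.hd h.t1 le_rfl
    (hF ▸ h.psd) h4
  have c3 : θ ≤ 1 - ⟪om, nu v x⟫ := by linarith only [X0.cu1_lt β, c1, hθ]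
  have key := fun hB : r * Bn v x ≤ ηt =>
    hm β v F ρm δ r σ θ x om _ h hc.cone.unit σ1 σ2 p0 hp cF hF h3 c3 (hB.trans t1) _ rfl
  generalize hgd : ∇ (rr v F) x = g at h5 key
  have rt1 : tt v x ≤ r * tt v x := le_mul_of_one_le_left tx h.one
  refine ⟨g, RF.mono (C := C + ε) (fun e he => ⟨rr v F, rr_c2 h.sol N0 cF (hF ▸ h.c0.ne'),
    h.rr_eq hF, h2, hgd, fun a => (h5 a).trans ?_⟩) (by linarith only [C1, hK]) r0.le,
    fun hB => TL.mono (C := (3 + 6 * K) / θ) ⟨hσ ▸ (key hB).1.trans (mul_le_mul_of_nonneg_right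
      (by linarith only [C1, hK]) (by positivity)), fun hc0 => ?_⟩
      h.sol (by linarith only [hC, hε]) r0.le⟩
  · have a1 : 0 ≤ ε / 2 * (‖g‖ ^ 2 / r) := by positivity
    have a2 : 0 ≤ ε * (r * ‖a‖ ^ 2) := by positivity
    have a3 : 0 ≤ ε * (r * tt v x ^ 2) := by positivity
    have a4 : 0 ≤ ε * (r * hsq (dd v) x) := mul_nonneg hε.le (mul_nonneg r0.le (hsq_nonneg _ _))
    split_ifs with hB
    · have b := thin_pot hε h.one (Real.sqrt_nonneg _) hB t1 t2 (key hB).2.1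
      rw [Real.sq_sqrt (hsq_nonneg _ _)] at b
      simp only [div_eq_mul_inv] at a1 b ⊢
      linarith only [a2, a4, b, he]
    · simp only [div_eq_mul_inv] at a1 ⊢
      linarith only [a1, a2, a3, a4, he]
  obtain ⟨k1, k2, k3⟩ := (key hB).2.2 hc0
  have o1 : ‖om - nu v x‖ ^ 2 = 2 * (1 - ⟪om, nu v x⟫) := by
    rw [norm_sub_sq_real, hc.cone.unit, norm_nu N0]; ring
  have o2 : θ ≤ ‖om - nu v x‖ :=
    (sq_le_sq₀ θ0.le (norm_nonneg _)).1 (by nlinarith only [o1, c3, θ0, θ1])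
  refine ⟨by linarith only [k1, C1, hK],
    k2.trans (le_trans ?_ (mul_le_mul_of_nonneg_right C1 (by positivity))),
    k3.trans ?_, fun h6 => absurd ((hc.cone.cap' h6).1.trans c1) (not_lt.2 (cu1_le_cu0 β))⟩
  · linarith only [mul_nonneg hK tz, σ4, rt1, tz]
  · calc _ ≤ (3 + 6 * K) / θ * r * tt v x * θ := by
          rw [show (3 + 6 * K) / θ * r * tt v x * θ = (3 + 6 * K) * r * tt v x by field_simp]
          linarith only [σ5, rt1, tx]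
      _ ≤ _ := mul_le_mul_of_nonneg_left (by linarith only [o2, tx, tz]) (by positivity)

end

end Crest.Agent.N067.M.Bl
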