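import Crest.Agent.N067.V.Weak2
import Crest.Agent.N067.A.DReg

/-!
# Row 67 (helper55): the two-point function `φ₊`, part 1 (definition, bounds, contacts)

`phi f x = sup_p 2 (f x + Df x p - f (x + p)) / |p|²`; `φ₊ = phi (dd v)`, `φ₋ = phi (dd (-v))`.
-/

set_option autoImplicit false

open MeasureTheory Laplacian InnerProductSpace Topology Filter Set Metric
open scoped RealInnerProductSpace ContDiff Gradient NNReal

namespace Crest.Agent.N067.V

open Crest.Agent.R077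

noncomputable section

variable {n : ℕ} {f g v : EE n → ℝ} {x p : EE n}

/-- directional derivative -/
def dr (e : EE n) (f : EE n → ℝ) (x : EE n) : ℝ := fderiv ℝ f x e

/-- the Hessian as a bilinear map -/
abbrev hb (f : EE n → ℝ) (x : EE n) : EE n →L[ℝ] EE n →L[ℝ] ℝ := fderiv ℝ (fderiv ℝ f) x

/-- Taylor defect -/
def tay (f : EE n → ℝ) (p x : EE n) : ℝ := f x + fderiv ℝ f x p - f (x + p)

/-- the two-point function -/
def Zf (f : EE n → ℝ) (p x : EE n) : ℝ := 2 / ‖p‖ ^ 2 * tay f p x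

/-- its supremum -/
def phi (f : EE n → ℝ) (x : EE n) : ℝ := ⨆ p, Zf f p x

theorem hb_symm (hf : ContDiffAt ℝ 2 f x) (a b : EE n) : hb f x a b = hb f x b a :=
  hf.isSymmSndFDerivAt (by simp) a b

theorem fderiv_dr (hf : ContDiffAt ℝ 2 f x) (a b : EE n) : fderiv ℝ (dr b f) x a = hb f x a b :=
  St.fderiv_apply_fderiv hf a b

theorem dr_sm (hf : ContDiff ℝ ∞ f) (e : EE n) : ContDiff ℝ ∞ (dr e f) :=
  St.contDiff_dir hf (by simp) e

theorem c2_of (hf : ContDiff ℝ ∞ f) (x : EE n) : ContDiffAt ℝ 2 f x :=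
  (contDiff_infty.1 hf 2).contDiffAt

theorem diff_fderiv (hf : ContDiff ℝ ∞ f) : Differentiable ℝ (fderiv ℝ f) :=
  ((contDiff_infty.1 hf 2).fderiv_right (m := 1) (by norm_num)).differentiable (by simp)

theorem tay_sm (hf : ContDiff ℝ ∞ f) (p : EE n) : ContDiff ℝ ∞ (tay f p) :=
  (hf.add (dr_sm hf p)).sub (hf.comp (contDiff_id.add contDiff_const))

theorem Zf_sm (hf : ContDiff ℝ ∞ f) (p : EE n) : ContDiff ℝ ∞ (Zf f p) :=
  contDiff_const.mul (tay_sm hf p)

theorem pdv_tay (hf : ContDiff ℝ ∞ f) (i : Fin n) (p x : EE n) :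
    pdv i (tay f p) x = tay (pdv i f) p x := by
  have d1 := hf.differentiable (by simp)
  have d2 := (dr_sm hf p).differentiable (by simp) x
  have e : pdv i (fun y => f (y + p)) x = pdv i f (x + p) := by
    rw [pdv, fderiv_comp_add_right]; rfl
  refine (pdv_sub (f := fun y => f y + dr p f y) (g := fun y => f (y + p)) ((d1 x).add d2)
    ((d1 _).comp x (differentiableAt_id.add_const p)) i).trans ?_
  rw [pdv_add (d1 x) d2, e, tay]
  congr 2
  exact St.dir_comm (c2_of hf x) (ev i) p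

theorem pdv_Zf (hf : ContDiff ℝ ∞ f) (i : Fin n) (p x : EE n) :
    pdv i (Zf f p) x = Zf (pdv i f) p x :=
  (pdv_const_mul ((tay_sm hf p).differentiable (by simp) x) _ i).trans (by rw [pdv_tay hf]; rfl)

theorem norm_hb (f : EE n → ℝ) (x : EE n) : ‖hb f x‖ = ‖iteratedFDeriv ℝ 2 f x‖ := by
  rw [← norm_iteratedFDeriv_one, norm_iteratedFDeriv_fderiv]

theorem abs_tay_le (hf : ContDiff ℝ ∞ f) {C : ℝ} (h : ∀ x, ‖hb f x‖ ≤ C) (p x : EE n) :
    |tay f p x| ≤ C * ‖p‖ ^ 2 := by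
  have h6 := (convex_closedBall x ‖p‖).norm_image_sub_le_of_norm_fderiv_le' (f := f)
    (φ := fderiv ℝ f x) (C := C * ‖p‖) (fun z _ => hf.differentiable (by simp) z)
    (fun z hz => (convex_univ.norm_image_sub_le_of_norm_fderiv_le
      (fun w _ => diff_fderiv hf w)
      (fun w _ => h w) (mem_univ x) (mem_univ z)).trans
        (mul_le_mul_of_nonneg_left (mem_closedBall_iff_norm.1 hz) ((norm_nonneg (hb f x)).trans (h x))))
    (mem_closedBall_self (norm_nonneg p)) (show x + p ∈ _ by simp)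
  rw [add_sub_cancel_left, Real.norm_eq_abs, abs_sub_comm] at h6
  rw [tay, sq, ← mul_assoc]
  convert h6 using 2
  ring

theorem abs_Zf_le (hf : ContDiff ℝ ∞ f) {C : ℝ} (h : ∀ x, ‖hb f x‖ ≤ C) (p x : EE n) :
    |Zf f p x| ≤ 2 * C := by
  have hC := (norm_nonneg (hb f x)).trans (h x)
  by_cases hp : p = 0
  · simp [Zf, hp, hC]
  · have := pow_pos (norm_pos_iff.2 hp) 2
    rw [Zf, abs_mul, abs_of_pos (by positivity), div_mul_eq_mul_div, div_le_iff₀ this]
    linarith [abs_tay_le hf h p x]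

theorem ub_Zf {ι : Type*} {F : ι → EE n → ℝ} (hF : ∀ a, ContDiff ℝ ∞ (F a)) (k : ℕ)
    (h : ∀ i, UB (fun _ _ => 1) (k + 1) fun a => pdv i (F a)) :
    UB (fun _ _ => 1) k fun z : ι × EE n => Zf (F z.1) z.2 := by
  have h0 : ∀ {F : ι → EE n → ℝ}, (∀ a, ContDiff ℝ ∞ (F a)) →
      (∀ i, UB (fun _ _ => 1) 1 fun a => pdv i (F a)) →
      UB0 (fun _ _ => 1) fun z : ι × EE n => Zf (F z.1) z.2 := fun hF h => by
    obtain ⟨C, hC, h1⟩ := ub_iter_succ hF h
    exact ⟨fun z => Zf_sm (hF _) _, 2 * C, by positivity, fun z x => by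
      simpa using abs_Zf_le (hF z.1) (fun y => (norm_hb _ y).trans_le (h1 z.1 y)) z.2 x⟩
  induction k generalizing F with
  | zero => exact h0 hF h
  | succ k ih =>
    exact ⟨h0 hF fun i => (h i).of_le (by omega), fun i =>
      (ih (fun a => (h i).sm a) fun j => (h i).pdv j).congr fun z x => pdv_Zf (hF _) i _ x⟩

/-- universal bounds -/
theorem exists_Zbd (n : ℕ) : ∃ C : ℝ, 0 ≤ C ∧ ∀ v : EE n → ℝ, Sol v → ∀ p x,
    |Zf (dd v) p x| ≤ C ∧ ‖fderiv ℝ (Zf (dd v) p) x‖ ≤ C ∧ ‖hb (Zf (dd v) p) x‖ ≤ C := by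
  have h := ub_Zf (fun a : SS n => a.2.dd_sm) 2 (ub_d 3)
  obtain ⟨C0, h0, H0⟩ := h.bd
  obtain ⟨C1, h1, H1⟩ := h.of_succ.iter
  obtain ⟨C2, h2, H2⟩ := h.iter
  refine ⟨C0 + C1 + C2, by positivity, fun v hv p x => ⟨?_, ?_, ?_⟩⟩
  · linarith [H0 (⟨v, hv⟩, p) x]
  · rw [← norm_iteratedFDeriv_one]; linarith [H1 (⟨v, hv⟩, p) x]
  · rw [norm_hb]; linarith [H2 (⟨v, hv⟩, p) x]

theorem bdd_Zf (hv : Sol v) (x : EE n) : BddAbove (range fun p => Zf (dd v) p x) := by
  obtain ⟨C, -, h⟩ := exists_Zbd n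
  exact ⟨C, forall_mem_range.2 fun p => (le_abs_self _).trans (h v hv p x).1⟩

theorem Zf_le (hv : Sol v) (p x : EE n) : Zf (dd v) p x ≤ phi (dd v) x := le_ciSup (bdd_Zf hv x) p

theorem phi_nonneg (hv : Sol v) (x : EE n) : 0 ≤ phi (dd v) x := by
  simpa [Zf] using Zf_le hv 0 x

theorem phi_le_iff (hv : Sol v) {c : ℝ} (hc : 0 ≤ c) :
    phi (dd v) x ≤ c ↔ ∀ p, tay (dd v) p x ≤ c / 2 * ‖p‖ ^ 2 := by
  rw [phi, ciSup_le_iff (bdd_Zf hv x)]
  refine forall_congr' fun p => ?_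
  by_cases hp : p = 0
  · simp [Zf, tay, hp, hc]
  · have := pow_pos (norm_pos_iff.2 hp) 2
    rw [Zf, div_mul_eq_mul_div, div_le_iff₀ this]
    constructor <;> intro h <;> linarith

/-- the paraboloid below `d` -/
theorem tay_le (hv : Sol v) (p x : EE n) : tay (dd v) p x ≤ phi (dd v) x / 2 * ‖p‖ ^ 2 :=
  (phi_le_iff hv (phi_nonneg hv x)).1 le_rfl p

/-- universal bound and Lipschitz constant -/
theorem exists_phi_bd (n : ℕ) : ∃ C : ℝ≥0, ∀ v : EE n → ℝ, Sol v →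
    (∀ x, phi (dd v) x ≤ C) ∧ LipschitzWith C (phi (dd v)) := by
  obtain ⟨C, hC, h⟩ := exists_Zbd n
  refine ⟨⟨C, hC⟩, fun v hv => ⟨fun x => ciSup_le fun p => (le_abs_self _).trans (h v hv p x).1,
    LipschitzWith.of_le_add_mul _ fun x y => ciSup_le fun p => ?_⟩⟩
  have h1 := convex_univ.norm_image_sub_le_of_norm_fderiv_le
    (fun w _ => (Zf_sm hv.dd_sm p).differentiable (by simp) w) (fun w _ => (h v hv p w).2.1)
    (mem_univ y) (mem_univ x)
  rw [dist_eq_norm]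
  change _ ≤ _ + C * _
  linarith [Zf_le hv p y, (abs_le.1 h1).2]

theorem continuous_phi (hv : Sol v) : Continuous (phi (dd v)) :=
  let ⟨_, h⟩ := exists_phi_bd n; (h v hv).2.continuous

theorem sc_phi (hv : Sol v) (Ω : Set (EE n)) : SC Ω (phi (dd v)) := by
  obtain ⟨C, -, h⟩ := exists_Zbd n
  exact SC.of_family (Zf_le hv) (fun x _ ε hε => (exists_lt_of_lt_ciSup (sub_lt_self _ hε)).imp
    fun _ => le_of_lt) (fun p => contDiff_infty.1 (Zf_sm hv.dd_sm p) 2) (fun p x => (h v hv p x).2.1)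
    fun p x => (h v hv p x).2.2

/-- the limit on the diagonal -/
theorem tay_small (hf : ContDiff ℝ ∞ f) (x : EE n) {ε : ℝ} (hε : 0 < ε) :
    ∀ᶠ p in 𝓝 (0 : EE n), |tay f p x + hb f x p p / 2| ≤ ε * ‖p‖ ^ 2 := by
  have d1 := hf.differentiable (by simp)
  have d2 := (diff_fderiv hf x).hasFDerivAt
  obtain ⟨r, hr, h⟩ := Metric.eventually_nhds_iff_ball.1
    ((hasFDerivAt_iff_isLittleO_nhds_zero.1 d2).bound hε)
  filter_upwards [ball_mem_nhds 0 hr] with p hp
  have h1 : ∀ y, HasFDerivAt (fun y => tay f y x + hb f x y y / 2)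
      (-(fderiv ℝ f (x + y) - fderiv ℝ f x - hb f x y)) y := fun y => by
    have a1 := (((fderiv ℝ f x).hasFDerivAt (x := y)).const_add (f x)).sub
      ((d1 (x + y)).hasFDerivAt.comp y ((hasFDerivAt_id y).const_add x))
    have a2 := ((hb f x).hasFDerivAt (x := y)).clm_apply (hasFDerivAt_id y)
    refine (a1.add (a2.mul_const (2⁻¹ : ℝ))).congr_fderiv ?_
    ext1 w
    simp [hb_symm (c2_of hf x) w y]
    ring
  have h2 := (convex_closedBall (0 : EE n) ‖p‖).norm_image_sub_le_of_norm_hasFDerivWithin_le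
    (fun y _ => (h1 y).hasFDerivWithinAt) (C := ε * ‖p‖) (fun y hy => by
      have hy' := mem_closedBall_zero_iff.1 hy
      rw [norm_neg]
      exact (h y (mem_ball_zero_iff.2 (hy'.trans_lt (mem_ball_zero_iff.1 hp)))).trans
        (mul_le_mul_of_nonneg_left hy' hε.le))
    (mem_closedBall_self (norm_nonneg p)) (show p ∈ _ by simp)
  simpa [tay, sq, mul_assoc] using h2

theorem tendsto_Zf (hf : ContDiff ℝ ∞ f) (x : EE n) :
    Tendsto (fun p => Zf f p x + hb f x p p / ‖p‖ ^ 2) (𝓝 0) (𝓝 0) := by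
  refine Metric.tendsto_nhds.2 fun ε hε => (tay_small hf x (ε := ε / 4) (by positivity)).mono
    fun p h => ?_
  by_cases hp : p = 0
  · simpa [Zf, hp] using hε
  · have h0 := pow_pos (norm_pos_iff.2 hp) 2
    rw [dist_zero_right, Real.norm_eq_abs, show Zf f p x + hb f x p p / ‖p‖ ^ 2 =
      2 * (tay f p x + hb f x p p / 2) / ‖p‖ ^ 2 by rw [Zf]; ring, abs_div, abs_mul,
      abs_of_pos h0, div_lt_iff₀ h0, abs_two]
    nlinarith

/-- `B + φ ≥ 0` -/
theorem hb_add_nonneg (hv : Sol v) (x a : EE n) :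
    0 ≤ hb (dd v) x a a + phi (dd v) x * ‖a‖ ^ 2 := by
  refine le_of_forall_pos_le_add fun ε hε => ?_
  have h1 : Tendsto (fun s : ℝ => s • a) (𝓝[>] 0) (𝓝 0) :=
    (Continuous.tendsto' (by fun_prop) 0 0 (by simp)).mono_left nhdsWithin_le_nhds
  obtain ⟨s, h2, hs⟩ := ((h1.eventually (tay_small hv.dd_sm x (ε := ε / (2 * (1 + ‖a‖ ^ 2)))
    (by positivity))).and self_mem_nhdsWithin).exists
  have h3 := tay_le hv (s • a) x
  have h4 := (abs_le.1 h2).1
  have h5 : ε / (2 * (1 + ‖a‖ ^ 2)) * ‖a‖ ^ 2 ≤ ε / 2 := by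
    rw [div_mul_eq_mul_div, div_le_iff₀ (by positivity)]; nlinarith
  have h6 := pow_pos (show 0 < s from hs) 2
  simp only [map_smul, smul_apply, smul_eq_mul, norm_smul, mul_pow,
    Real.norm_eq_abs, sq_abs] at h3 h4
  refine le_of_mul_le_mul_left ?_ h6
  nlinarith

theorem Zf_le_div (hv : Sol v) (p x : EE n) : Zf (dd v) p x ≤ 4 / ‖p‖ := by
  by_cases hp : p = 0
  · simp [Zf, hp]
  have h0 := norm_pos_iff.2 hp
  have h1 := hv.abs_dd_sub_le x (x + p)
  have h2 : fderiv ℝ (dd v) x p ≤ ‖p‖ := by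
    rw [← inner_grad]
    exact (real_inner_le_norm _ _).trans
      (mul_le_of_le_one_left h0.le (hv.norm_grad_dd_le x))
  have h3 : tay (dd v) p x ≤ 2 * ‖p‖ := by
    simp only [sub_add_cancel_left, norm_neg] at h1
    rw [tay]; linarith [(abs_le.1 h1).2]
  refine (mul_le_mul_of_nonneg_left h3 (by positivity)).trans_eq ?_
  field_simp; ring

/-- a far or a degenerate contact -/
theorem contact (hv : Sol v) (h0 : 0 < phi (dd v) x) : (∃ p, p ≠ 0 ∧ Zf (dd v) p x = phi (dd v) x) ∨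
    ∃ e, ‖e‖ = 1 ∧ hb (dd v) x e e = -phi (dd v) x := by
  obtain ⟨u, -, h1, h2⟩ := exists_seq_tendsto_sSup (range_nonempty _) (bdd_Zf hv x)
  choose p hp using h2
  change Tendsto u atTop (𝓝 (phi (dd v) x)) at h1
  have h3 : ∀ᶠ j in atTop, phi (dd v) x / 2 < Zf (dd v) (p j) x := by
    simp only [hp]; exact h1.eventually (lt_mem_nhds (half_lt_self h0))
  have h4 : ∀ᶠ j in atTop, p j ≠ 0 := h3.mono fun j h hj => by
    simp only [hj, Zf, norm_zero, ne_eq, OfNat.ofNat_ne_zero, not_false_eq_true, zero_pow, div_zero,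
      zero_mul] at h
    linarith
  obtain ⟨⟨a, e⟩, ⟨-, he⟩, σ, hσ, h5⟩ := ((isCompact_closedBall (0 : EE n) (8 / phi (dd v) x)).prod
    (isCompact_sphere (0 : EE n) 1)).tendsto_subseq' (x := fun j => (p j, ‖p j‖⁻¹ • p j))
    ((h3.and h4).mono fun j hj => ⟨by
      have h6 := hj.1.trans_le (Zf_le_div hv _ x)
      rw [lt_div_iff₀ (norm_pos_iff.2 hj.2)] at h6
      rw [mem_closedBall_zero_iff, le_div_iff₀ h0]
      linarith, by simp [norm_smul, hj.2]⟩).frequently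
  have h6 : Tendsto (fun j => p (σ j)) atTop (𝓝 a) := (continuous_fst.tendsto _).comp h5
  have h7 : Tendsto (fun j => ‖p (σ j)‖⁻¹ • p (σ j)) atTop (𝓝 e) := (continuous_snd.tendsto _).comp h5
  have h8 : Tendsto (fun j => Zf (dd v) (p (σ j)) x) atTop (𝓝 (phi (dd v) x)) := by
    simp only [hp]; exact h1.comp hσ.tendsto_atTop
  by_cases ha : a = 0
  · refine Or.inr ⟨e, by simpa using he, ?_⟩
    have h9 := (((tendsto_Zf hv.dd_sm x).comp (ha ▸ h6)).sub h8)
    rw [zero_sub] at h9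
    refine tendsto_nhds_unique (((hb (dd v) x).continuous₂.tendsto (e, e)).comp
      (h7.prodMk_nhds h7)) (h9.congr fun j => ?_)
    simp [div_eq_inv_mul, sq, mul_assoc]
  · refine Or.inl ⟨a, ha, tendsto_nhds_unique (ContinuousAt.tendsto (f := fun p => Zf (dd v) p x)
      ?_ |>.comp h6) h8⟩
    have := hv.dd_sm.continuous
    unfold Zf tay
    exact (continuousAt_const.div (g := fun p : EE n => ‖p‖ ^ 2) (by fun_prop)
      (pow_pos (norm_pos_iff.2 ha) 2).ne').mul (by fun_prop)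

end

end Crest.Agent.N067.V
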