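import Crest.Agent.N067.V.Phi1

/-!
# Row 67 (helper55): the two-point function `φ₊`, part 2 (calculus of `Lm`, far contacts)
-/

set_option autoImplicit false

open MeasureTheory Laplacian InnerProductSpace Topology Filter Set Metric
open scoped RealInnerProductSpace ContDiff Gradient NNReal

namespace Crest.Agent.N067.V

open Crest.Agent.R077

noncomputable section

variable {n : ℕ} {f g v : EE n → ℝ} {x p : EE n}

/-! ### calculus of `Lm` -/

theorem Lm_congr (h : f =ᶠ[𝓝 x] g) : Lm v f x = Lm v g x := by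
  rw [Lm_eq, Lm_eq, gin_congr_right h, (laplacian_congr_nhds h).self_of_nhds]

theorem Lm_add (hf : ContDiffAt ℝ 2 f x) (hg : ContDiffAt ℝ 2 g x) :
    Lm v (fun y => f y + g y) x = Lm v f x + Lm v g x := by
  rw [Lm_eq, Lm_eq, Lm_eq, lap_add' hf hg,
    gin_add_right (hf.differentiableAt (by simp)) (hg.differentiableAt (by simp))]
  ring

theorem Lm_sub (hf : ContDiffAt ℝ 2 f x) (hg : ContDiffAt ℝ 2 g x) :
    Lm v (fun y => f y - g y) x = Lm v f x - Lm v g x := by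
  rw [Lm_eq, Lm_eq, Lm_eq, lap_sub' hf hg,
    gin_sub_right (hf.differentiableAt (by simp)) (hg.differentiableAt (by simp))]
  ring

theorem Lm_mul (hf : ContDiffAt ℝ 2 f x) (hg : ContDiffAt ℝ 2 g x) :
    Lm v (fun y => f y * g y) x = Lm v f x * g x + 2 * gin f g x + f x * Lm v g x := by
  rw [Lm_eq, Lm_eq, Lm_eq, lap_mul' hf hg,
    gin_mul_right (hf.differentiableAt (by simp)) (hg.differentiableAt (by simp))]
  ring

theorem Lm_const_mul (hf : ContDiffAt ℝ 2 f x) (c : ℝ) :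
    Lm v (fun y => c * f y) x = c * Lm v f x := by
  rw [Lm_eq, Lm_eq, lap_const_mul hf, gin_const_mul_right (hf.differentiableAt (by simp))]
  ring

theorem Lm_neg (hf : ContDiffAt ℝ 2 f x) : Lm v (fun y => -f y) x = -Lm v f x := by
  simpa using Lm_const_mul (v := v) hf (-1)

theorem Lm_const (c : ℝ) : Lm v (fun _ => c) x = 0 := by
  simp [Lm_eq, gin, pdv_const]

theorem Lm_sum {ι : Type*} (s : Finset ι) {F : ι → EE n → ℝ}
    (hF : ∀ k ∈ s, ContDiffAt ℝ 2 (F k) x) :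
    Lm v (fun y => ∑ k ∈ s, F k y) x = ∑ k ∈ s, Lm v (F k) x := by
  simp only [Lm_eq, lap_sum s hF, gin, pdv_sum s fun k hk => (hF k hk).differentiableAt (by simp),
    Finset.mul_sum, Finset.sum_sub_distrib]
  rw [Finset.sum_comm]

theorem Lm_comp {φ φ1 : ℝ → ℝ} {φ2 : ℝ} (hf : ContDiffAt ℝ 2 f x)
    (hφ : ContDiffAt ℝ 2 φ (f x)) (h1 : ∀ᶠ s in 𝓝 (f x), HasDerivAt φ (φ1 s) s)
    (h2 : HasDerivAt φ1 φ2 (f x)) :
    Lm v (fun y => φ (f y)) x = φ1 (f x) * Lm v f x + φ2 * gsq f x := by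
  rw [Lm_eq, Lm_eq, lap_comp hf hφ h1 h2,
    gin_comp_right h1.self_of_nhds (hf.differentiableAt (by simp))]
  ring

theorem gin_eq_fderiv (f g : EE n → ℝ) (x : EE n) : gin f g x = fderiv ℝ g x (∇ f x) := by
  rw [gin_eq, real_inner_comm, inner_grad]

/-- affine functions -/
def aff (c : ℝ) (a x0 : EE n) (y : EE n) : ℝ := c + ⟪a, y - x0⟫

theorem aff_self (c : ℝ) (a x : EE n) : aff c a x x = c := by simp [aff]

theorem hasFDerivAt_aff (c : ℝ) (a x0 x : EE n) : HasFDerivAt (aff c a x0) (innerSL ℝ a) x :=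
  (((innerSL ℝ a).hasFDerivAt.comp x ((hasFDerivAt_id x).sub_const x0)).const_add c).congr_fderiv
    (ContinuousLinearMap.comp_id _)

theorem aff_sm (c : ℝ) (a x0 : EE n) : ContDiff ℝ ∞ (aff c a x0) :=
  contDiff_const.add (contDiff_const.inner ℝ (contDiff_id.sub contDiff_const))

theorem gin_aff (c : ℝ) (a x0 : EE n) (g : EE n → ℝ) (x : EE n) :
    gin (aff c a x0) g x = dr a g x := by
  rw [gin_comm, gin_eq_fderiv, (hasFDerivAt_aff c a x0 x).fderiv, innerSL_apply_apply,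
    real_inner_comm, inner_grad, dr]

theorem Lm_aff (c : ℝ) (a x0 x : EE n) :
    Lm v (aff c a x0) x = -(2 * √2 * v x * dr a (dd v) x) := by
  have e : aff c a x0 = fun y => ⟪a, y⟫ - (⟪a, x0⟫ - c) := funext fun y => by
    rw [aff, inner_sub_right]; ring
  rw [Lm_eq, gin_comm, gin_aff, e, lap_sub_const (f := fun y => ⟪a, y⟫)
    (innerSL ℝ a).contDiff.contDiffAt, lap_inner, zero_sub]

theorem dr_eq_sum (e : EE n) (f : EE n → ℝ) : dr e f = fun y => ∑ i, e i * pdv i f y :=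
  funext fun y => by simp only [dr, fderiv_eq_sum', mul_comm]

theorem Lm_dr (hv : Sol v) (e x : EE n) : Lm v (dr e (dd v)) x = -qq v x * dr e (dd v) x := by
  rw [dr_eq_sum, Lm_sum _ fun i _ => contDiffAt_const.mul (c2_of (hv.pdv_dd_sm i) x),
    Finset.mul_sum]
  refine Finset.sum_congr rfl fun i _ => ?_
  rw [Lm_const_mul (c2_of (hv.pdv_dd_sm i) x), hv.Lm_pdv]
  ring

theorem gin_dr (hf : ContDiffAt ℝ 2 f x) (g : EE n → ℝ) (a : EE n) :
    gin g (dr a f) x = hb f x (∇ g x) a := by rw [gin_eq_fderiv, fderiv_dr hf]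

theorem lap_isom (hf : ContDiff ℝ 2 f) (R : EE n ≃ₗᵢ[ℝ] EE n) (c x : EE n) :
    (Δ fun y => f (c + R y)) x = (Δ f) (c + R x) := by
  have h2 := congrFun (laplacian_eq_iteratedFDeriv_orthonormalBasis (fun y => f (c + y))
    ((EuclideanSpace.basisFun (Fin n) ℝ).map R)) (R x)
  rw [← Ker.lap_shift, h2, laplacian_eq_iteratedFDeriv_orthonormalBasis _
    (EuclideanSpace.basisFun (Fin n) ℝ)]
  refine Finset.sum_congr rfl fun i _ => ?_
  have h3 := ContinuousLinearMap.iteratedFDeriv_comp_right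
    (R.toContinuousLinearEquiv : EE n →L[ℝ] EE n) (hf.comp (contDiff_const.add contDiff_id :
      ContDiff ℝ 2 fun y => c + y)) x (i := 2) le_rfl
  rw [show (fun y => f (c + R y)) = (f ∘ fun y => c + y) ∘
    (R.toContinuousLinearEquiv : EE n →L[ℝ] EE n) from rfl, h3,
    ContinuousMultilinearMap.compContinuousLinearMap_apply]
  congr 1
  funext j
  fin_cases j <;> simp

theorem exists_refl {e : EE n} (he : ‖e‖ = 1) :
    ∃ R : EE n ≃ₗᵢ[ℝ] EE n, ∀ x, R x = x - (2 * ⟪e, x⟫) • e := by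
  refine ⟨Submodule.reflection (ℝ ∙ e)ᗮ, fun x => ?_⟩
  rw [Submodule.reflection_orthogonal_apply, Submodule.reflection_singleton_apply]
  simp [he, two_smul, two_mul, add_smul]

/-! ### far contacts -/

variable {φ : ℝ}

/-- a far contact of the paraboloid of opening `φ` (value and first order condition) -/
structure Far (v : EE n → ℝ) (φ : ℝ) (p x : EE n) : Prop where
  ne : p ≠ 0
  eq : tay (dd v) p x = φ / 2 * ‖p‖ ^ 2
  grad_eq : ∇ (dd v) (x + p) = ∇ (dd v) x - φ • p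

theorem Far.of_le (hv : Sol v) (hp : p ≠ 0) (he : tay (dd v) p x = φ / 2 * ‖p‖ ^ 2)
    (hl : ∀ᶠ y in 𝓝 p, tay (dd v) y x ≤ φ / 2 * ‖y‖ ^ 2) : Far v φ p x := by
  refine ⟨hp, he, ext_inner_right ℝ fun h => ?_⟩
  have h1 : IsLocalMax (fun y => tay (dd v) y x - φ / 2 * ‖y‖ ^ 2) p :=
    hl.mono fun y hy => by simp only [he]; linarith
  have h2 := (((((fderiv ℝ (dd v) x).hasFDerivAt (x := p)).const_add (dd v x)).sub
    ((hv.dd_diff (x + p)).hasFDerivAt.comp p ((hasFDerivAt_id p).const_add x))).sub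
      ((hasFDerivAt_id p).norm_sq.const_mul (φ / 2)))
  have h3 := congrArg (fun T : EE n →L[ℝ] ℝ => T h) (h1.hasFDerivAt_eq_zero h2)
  simp at h3
  rw [inner_sub_left, inner_grad, inner_grad, real_inner_smul_left]
  linarith

theorem tay_eq_of_Zf (hp : p ≠ 0) (hc : Zf f p x = φ) : tay f p x = φ / 2 * ‖p‖ ^ 2 := by
  have := (norm_pos_iff.2 hp).ne'
  rw [← hc, Zf]; field_simp

theorem Far.of_phi (hv : Sol v) (hp : p ≠ 0) (hc : Zf (dd v) p x = phi (dd v) x) :
    Far v (phi (dd v) x) p x :=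
  .of_le hv hp (tay_eq_of_Zf hp hc) (Eventually.of_forall fun y => tay_le hv y x)

theorem Far.Zf_eq (h : Far v φ p x) : Zf (dd v) p x = φ := by
  have := (norm_pos_iff.2 h.ne).ne'
  rw [Zf, h.eq]; field_simp

theorem Far.fderiv_eq (hc : Far v φ p x) (h : EE n) :
    fderiv ℝ (dd v) (x + p) h = fderiv ℝ (dd v) x h - φ * ⟪p, h⟫ := by
  rw [← inner_grad, hc.grad_eq, inner_sub_left, inner_grad, real_inner_smul_left]

/-- `⟪n, p⟫ = δ + φ |p|² / 2` -/
theorem Far.dr_eq (hc : Far v φ p x) :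
    dr p (dd v) x = dd v (x + p) - dd v x + φ / 2 * ‖p‖ ^ 2 := by
  rw [← hc.eq, tay, dr]; ring

/-- `t_z - t_x = 2 φ δ` -/
theorem Far.tt_eq (hc : Far v φ p x) :
    tt v (x + p) = tt v x + 2 * φ * (dd v (x + p) - dd v x) := by
  have h := hc.dr_eq
  rw [dr, ← inner_grad] at h
  rw [tt, tt, hc.grad_eq, norm_sub_sq_real, real_inner_smul_right, h, norm_smul, mul_pow,
    Real.norm_eq_abs, sq_abs]
  ring

/-- the source term of a far contact -/
def Ef (v : EE n → ℝ) (p x : EE n) : ℝ :=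
  2 / ‖p‖ ^ 2 * (√2 * (v (x + p) - v x) * tt v (x + p) - qq v x * (dd v (x + p) - dd v x))

theorem Far.x1' (hv : Sol v) {e : EE n} (he : ‖e‖ = 1) {l : ℝ} (hl : 0 < l)
    (hc : Far v φ (l • e) x) :
    ∃ f, (∀ y, f y = Zf (dd v) (aff l ((-2 : ℝ) • e) x y • e) y) ∧ ContDiffAt ℝ 2 f x ∧ f x = φ ∧
      (∀ h, fderiv ℝ f x h = 2 / l * (hb (dd v) x e h + φ * ⟪e, h⟫)) ∧
      Lm v f x = -qq v x * φ - 2 * √2 * v x * φ ^ 2 + Ef v (l • e) x
        + 8 * (hb (dd v) x e e + φ) / l ^ 2 := by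
  have hn : ∀ s : ℝ, ‖s • e‖ ^ 2 = s ^ 2 := fun s => by
    rw [norm_smul, he, mul_one, Real.norm_eq_abs, sq_abs]
  have hee : ⟪e, e⟫ = 1 := by rw [real_inner_self_eq_norm_sq, he, one_pow]
  obtain ⟨R, hR⟩ := exists_refl he
  set σ := aff l ((-2 : ℝ) • e) x with hσ
  set W : EE n → ℝ := fun y => dd v (x + l • e - R x + R y) with hW
  set A : EE n → ℝ := fun y => dd v y + σ y * dr e (dd v) y - W y with hA
  have σx : σ x = l := aff_self ..
  have zx : x + l • e - R x + R x = x + l • e := sub_add_cancel ..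
  have e1 : ∀ y, Zf (dd v) (σ y • e) y = 2 / σ y ^ 2 * A y := fun y => by
    rw [Zf, hn, tay, map_smul, show y + σ y • e = x + l • e - R x + R y by
      rw [hR, hR, hσ, aff, real_inner_smul_left, inner_sub_right]; module]
    rfl
  have cd := c2_of hv.dd_sm x
  have cσ : ContDiffAt ℝ 2 σ x := c2_of (aff_sm ..) x
  have cD := c2_of (dr_sm hv.dd_sm e) x
  have cW : ContDiffAt ℝ 2 W x :=
    ((hv.dd_cd 2).comp (contDiff_const.add R.toContinuousLinearEquiv.contDiff)).contDiffAt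
  have cA : ContDiffAt ℝ 2 A x := (cd.add (cσ.mul cD)).sub cW
  set f : EE n → ℝ := fun y => 2 / σ y ^ 2 * A y with hf
  have cf : ContDiffAt ℝ 2 f x :=
    (contDiffAt_const.div (cσ.pow 2) (by rw [σx]; positivity)).mul cA
  have fx : f x = φ := by rw [← hc.Zf_eq, ← σx, e1]
  have e2 : (fun y => f y * (σ y * σ y)) =ᶠ[𝓝 x] fun y => 2 * A y := by
    filter_upwards [cσ.continuousAt.eventually_ne (y := 0) (by rw [σx]; exact hl.ne')] with y hy
    rw [hf]; field_simp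
  have dσ : HasFDerivAt σ (innerSL ℝ ((-2 : ℝ) • e)) x := hasFDerivAt_aff ..
  have dW : ∀ h, fderiv ℝ W x h = fderiv ℝ (dd v) x h - 2 * ⟪e, h⟫ * dr e (dd v) x
      + φ * l * ⟪e, h⟫ := fun h => by
    have := (hv.dd_diff (x + l • e - R x + R x)).hasFDerivAt.comp x
      ((R.toContinuousLinearEquiv.hasFDerivAt (x := x)).const_add (x + l • e - R x))
    rw [show fderiv ℝ W x = _ from this.fderiv, zx]
    change fderiv ℝ (dd v) (x + l • e) (R h) = _
    rw [hc.fderiv_eq, hR, map_sub, map_smul, inner_sub_right, real_inner_smul_left,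
      real_inner_smul_left, real_inner_smul_right, hee, dr, smul_eq_mul]
    ring
  have df : ∀ h, fderiv ℝ f x h = 2 / l * (hb (dd v) x e h + φ * ⟪e, h⟫) := fun h => by
    have h1 := ((cf.differentiableAt (by simp)).hasFDerivAt.mul (dσ.mul dσ)).unique
      (((((hv.dd_diff x).hasFDerivAt.add (dσ.mul (cD.differentiableAt (by simp)).hasFDerivAt)).sub
        (cW.differentiableAt (by simp)).hasFDerivAt).const_mul 2).congr_of_eventuallyEq e2)
    have h2 := congrArg (fun T : EE n →L[ℝ] ℝ => T h) h1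
    simp only [add_apply, smul_apply, sub_apply, smul_eq_mul, innerSL_apply_apply, σx, fx, dW,
      real_inner_smul_left, fderiv_dr cd, hb_symm cd h e, Pi.mul_apply] at h2
    field_simp
    refine mul_left_cancel₀ hl.ne' ?_
    linarith
  refine ⟨f, fun y => (e1 y).symm, cf, fx, df, ?_⟩
  have h1 := Lm_congr (v := v) e2
  have lW : Lm v W x = -√2 * v (x + l • e) * tt v (x + l • e) - 2 * √2 * v x * (1 - tt v x
      - 2 * dr e (dd v) x ^ 2 + φ * l * dr e (dd v) x) := by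
    rw [Lm_eq, lap_isom (hv.dd_cd 2), zx, hv.lap_dd, gin_eq_fderiv, dW, ← gin_eq_fderiv, gin_self,
      N067.tt_eq v x, real_inner_comm, inner_grad, dr]
    ring
  have gσ : ∀ g, gin σ g x = -2 * fderiv ℝ g x e := fun g => by rw [hσ, gin_aff, dr, map_smul]; rfl
  have lσ : Lm v σ x = 4 * √2 * v x * dr e (dd v) x := by
    rw [hσ, Lm_aff, dr, map_smul, dr, smul_eq_mul]; ring
  rw [Lm_mul cf (cσ.mul cσ), Lm_mul cσ cσ, Lm_const_mul cA, hA, Lm_sub (cd.add (cσ.mul cD)) cW,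
    Lm_add cd (cσ.mul cD), Lm_mul cσ cD, lW, lσ, Lm_dr hv, hv.Lm_dd,
    gin_mul_right (cσ.differentiableAt (by simp)) (cσ.differentiableAt (by simp)), gin_comm f,
    gσ, gσ, gσ, df, dσ.fderiv, fderiv_dr cd, σx, fx, innerSL_apply_apply, real_inner_smul_left,
    hee] at h1
  have h2 := hc.dr_eq
  have h3 := hc.tt_eq
  rw [dr, map_smul, hn, smul_eq_mul] at h2
  rw [Ef, hn]
  rw [dr] at h1
  have hl2 : l ^ 2 ≠ 0 := by positivity
  refine mul_right_cancel₀ hl2 ?_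
  simp only [add_mul, div_mul_cancel₀ _ hl2, mul_right_comm (2 / l ^ 2) _ (l ^ 2)]
  linear_combination h1 + 8 * (hb (dd v) x e e + φ) * div_mul_cancel₀ 2 hl.ne'
    - (4 * √2 * v x * φ + 2 * qq v x) * h2 + 2 * √2 * v x * h3

/-- **X1, far contact** (exact); the support is `y ↦ Zf d (P y) y` -/
theorem Far.x1 (hc : Far v φ p x) (hv : Sol v) :
    ∃ (P : EE n → EE n) (f : EE n → ℝ), Continuous P ∧ P x = p ∧ (∀ y, f y = Zf (dd v) (P y) y) ∧
      ContDiffAt ℝ 2 f x ∧ f x = φ ∧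
      (∀ h, fderiv ℝ f x h = 2 / ‖p‖ ^ 2 * (hb (dd v) x p h + φ * ⟪p, h⟫)) ∧
      Lm v f x = -qq v x * φ - 2 * √2 * v x * φ ^ 2 + Ef v p x
        + 8 * (hb (dd v) x p p + φ * ‖p‖ ^ 2) / ‖p‖ ^ 4 := by
  have hl := norm_pos_iff.2 hc.ne
  obtain ⟨e, he, h1⟩ : ∃ e : EE n, ‖e‖ = 1 ∧ p = ‖p‖ • e :=
    ⟨‖p‖⁻¹ • p, by simp [norm_smul, hl.ne'], by simp [smul_smul, hl.ne']⟩
  generalize ‖p‖ = l at *
  subst h1
  obtain ⟨f, h0, h1, h1', h2, h3⟩ := hc.x1' hv he hl
  refine ⟨fun y => aff l ((-2 : ℝ) • e) x y • e, f, (aff_sm ..).continuous.smul continuous_const,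
    by simp only [aff_self], h0, h1, h1', fun h => ?_, ?_⟩
  · simp only [h2, map_smul, smul_apply, real_inner_smul_left, smul_eq_mul]
    field_simp
  · simp only [h3, map_smul, smul_apply, smul_eq_mul]
    field_simp

end

end Crest.Agent.N067.V
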