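import Crest.Agent.N067.V.Phi3

/-!
# Row 67 (helper55): X1, one support for all `a`; calculus of `N = |∇d|`
-/

set_option autoImplicit false

open MeasureTheory Laplacian InnerProductSpace Topology Filter Set Metric
open scoped RealInnerProductSpace ContDiff Gradient NNReal

namespace Crest.Agent.N067.V

open Crest.Agent.R077

noncomputable section

variable {n : ℕ} {f g v : EE n → ℝ} {x p e : EE n} {φ : ℝ}

/-- the Hessian as an operator -/
def hop (f : EE n → ℝ) (x : EE n) : EE n →L[ℝ] EE n := continuousLinearMapOfBilin (𝕜 := ℝ) (hb f x)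

theorem inner_hop (f : EE n → ℝ) (x a b : EE n) : ⟪hop f x a, b⟫ = hb f x a b :=
  continuousLinearMapOfBilin_apply (𝕜 := ℝ) (hb f x) a b

theorem grad_dr (hf : ContDiffAt ℝ 2 f x) (a : EE n) : ∇ (dr a f) x = hop f x a :=
  ext_inner_right ℝ fun h => by rw [inner_grad, fderiv_dr hf, inner_hop, hb_symm hf]

theorem hop_symm (hf : ContDiffAt ℝ 2 f x) (a b : EE n) : ⟪hop f x a, b⟫ = ⟪a, hop f x b⟫ := by
  rw [inner_hop, hb_symm hf, ← inner_hop, real_inner_comm]

/-- third derivatives -/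
theorem fderiv_hb (hf : ContDiff ℝ ∞ f) (x a b c : EE n) :
    fderiv ℝ (fun y => hb f y b c) x a = fderiv ℝ (hb f) x a b c := by
  have h : DifferentiableAt ℝ (hb f) x := diff_fderiv' hf x
  rw [(((h.hasFDerivAt.clm_apply (hasFDerivAt_const b x)).clm_apply (hasFDerivAt_const c x))).fderiv]
  simp
where diff_fderiv' (hf : ContDiff ℝ ∞ f) (x : EE n) : DifferentiableAt ℝ (hb f) x :=
  (((contDiff_infty.1 hf 3).fderiv_right (m := 2) (by norm_num)).fderiv_right (m := 1)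
    (by norm_num)).differentiable (by simp) x

theorem t3_left (hf : ContDiff ℝ ∞ f) (x a b c : EE n) :
    fderiv ℝ (hb f) x a b c = fderiv ℝ (hb f) x b a c := by
  rw [← fderiv_hb hf, ← fderiv_hb hf, ← dr_dr hf, ← dr_dr hf]
  exact dr_comm (c2_of (dr_sm hf c) x) a b

theorem t3_right (hf : ContDiff ℝ ∞ f) (x a b c : EE n) :
    fderiv ℝ (hb f) x a b c = fderiv ℝ (hb f) x a c b := by
  rw [← fderiv_hb hf, ← fderiv_hb hf, funext fun y => hb_symm (c2_of hf y) b c]

theorem third_ker (hf : ContDiff ℝ ∞ f) (h : ∀ᶠ y in 𝓝 0, tay f y x ≤ φ / 2 * ‖y‖ ^ 2)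
    {k : EE n} (hk : hb f x k k + φ * ‖k‖ ^ 2 = 0) : fderiv ℝ (hb f) x k k k = 0 := by
  have l : ∀ {F : EE n → ℝ}, ContDiff ℝ ∞ F → ∀ s : ℝ,
      HasDerivAt (fun s : ℝ => F (x + s • k)) (dr k F (x + s • k)) s := fun hF s =>
    ((hF.differentiable (by simp) _).hasFDerivAt.comp_hasDerivAt s
      (((hasDerivAt_id s).smul_const k).const_add x)).congr_deriv (by simp [dr])
  have s1 := dr_sm hf k
  have h1 : Tendsto (fun s : ℝ => s • k) (𝓝 0) (𝓝 0) :=
    Continuous.tendsto' (by fun_prop) 0 0 (by simp)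
  rw [← fderiv_hb hf, ← dr_dr hf]
  refine third_eq_zero (g := fun s => f (x + s • k) - f x - dr k f x * s + φ * ‖k‖ ^ 2 / 2 * s ^ 2)
    (g1 := fun s => dr k f (x + s • k) - dr k f x + φ * ‖k‖ ^ 2 * s)
    (g2 := fun s => dr k (dr k f) (x + s • k) + φ * ‖k‖ ^ 2)
    (fun s => ((((l hf s).sub_const _).sub ((hasDerivAt_id s).const_mul _)).add
      ((hasDerivAt_pow 2 s).const_mul _)).congr_deriv (by ring))
    (fun s => (((l s1 s).sub_const _).add ((hasDerivAt_id s).const_mul _)).congr_deriv (by ring))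
    (((l (dr_sm s1 k) 0).add_const _).congr_deriv (by simp [dr])) (by simp) (by simp)
    (by simpa [dr_dr hf] using hk) ((h1.eventually h).mono fun s hs => ?_)
  rw [tay, map_smul, norm_smul, mul_pow, Real.norm_eq_abs, sq_abs, smul_eq_mul] at hs
  rw [dr]; linarith

/-- the gradient of the degenerate support lies in the range of `B + φ` -/
theorem Deg.exists_pre (hc : Deg v φ e x) (hv : Sol v) : ∃ a, ∀ h,
    -fderiv ℝ (fun y => hb (dd v) y e e) x h = hb (dd v) x a h + φ * ⟪a, h⟫ := by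
  have cd := c2_of hv.dd_sm x
  set T : EE n →ₗ[ℝ] EE n := (hop (dd v) x).toLinearMap + φ • LinearMap.id
  have hT : ∀ a h, ⟪T a, h⟫ = hb (dd v) x a h + φ * ⟪a, h⟫ := fun a h => by
    simp [T, inner_add_left, inner_hop, real_inner_smul_left]
  have hs : T.IsSymmetric := fun a b => by
    rw [hT, real_inner_comm (T b), hT, hb_symm cd, real_inner_comm]
  have h1 : -∇ (fun y => hb (dd v) y e e) x ∈ (LinearMap.range T)ᗮᗮ := by
    rw [hs.orthogonal_range, Submodule.mem_orthogonal]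
    intro k hk
    have k0 : ∀ h, hb (dd v) x k h + φ * ⟪k, h⟫ = 0 := fun h => by
      rw [← hT, LinearMap.mem_ker.1 hk, inner_zero_left]
    have k1 : ∀ s : ℝ, fderiv ℝ (hb (dd v)) x (e + s • k) (e + s • k) (e + s • k) = 0 := fun s =>
      third_ker hv.dd_sm hc.le (by
        rw [← real_inner_self_eq_norm_sq, (hb (dd v) x).map_add, (hb (dd v) x).map_smul, add_apply,
          smul_apply, inner_add_left, real_inner_smul_left, hc.hb_eq hv, smul_eq_mul]
        linear_combination s * k0 (e + s • k))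
    have k2 := third_ker hv.dd_sm hc.le (k := k) (by rw [← real_inner_self_eq_norm_sq, k0])
    have k3 := k1 1
    have k4 := k1 (-1)
    have k5 := k1 0
    simp only [map_add, map_smul, add_apply, smul_apply, smul_eq_mul, k2, t3_left hv.dd_sm x e k,
      t3_right hv.dd_sm x _ e k] at k3 k4 k5
    rw [inner_neg_right, real_inner_comm, inner_grad, fderiv_hb hv.dd_sm]
    have k6 := t3_right hv.dd_sm x e e k
    have k7 := t3_left hv.dd_sm x e k e
    linarith
  rw [Submodule.orthogonal_orthogonal] at h1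
  obtain ⟨a, ha⟩ := h1
  exact ⟨a, fun h => by rw [← hT, ha, inner_neg_left, inner_grad]⟩

theorem kato_pre (hf : ContDiffAt ℝ 2 f x) (h : ∀ a, 0 ≤ hb f x a a + φ * ‖a‖ ^ 2) (a b : EE n) :
    4 * (hb f x a b + φ * ⟪a, b⟫) - 2 * (hb f x b b + φ * ‖b‖ ^ 2)
      ≤ 2 * (hb f x a a + φ * ‖a‖ ^ 2) := by
  have := h (a - b)
  simp only [norm_sub_sq_real, map_sub, sub_apply, hb_symm hf b a] at this
  linarith

/-- **X1, degenerate contact**: one support for all `a` -/
theorem Deg.x1' (hc : Deg v φ e x) (hv : Sol v) :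
    ∃ (E : EE n → EE n) (f : EE n → ℝ), Continuous E ∧ E x = e ∧
      (∀ y, f y = -hb (dd v) y (E y) (E y) / ‖E y‖ ^ 2) ∧ ContDiffAt ℝ 2 f x ∧ f x = φ ∧
      (∀ h, fderiv ℝ f x h = -fderiv ℝ (fun y => hb (dd v) y e e) x h) ∧
      ∀ a, -qq v x * φ - 2 * √2 * v x * φ ^ 2
        + dr e (dd v) x ^ 2 * (4 * psi v x * φ - √2 * v x * qq v x)
        + (4 * fderiv ℝ f x a - 2 * (hb (dd v) x a a + φ * ‖a‖ ^ 2)) ≤ Lm v f x := by
  obtain ⟨b, hb'⟩ := hc.exists_pre hv
  obtain ⟨E, f, h1, h2, h3, h4, h5, h6, h7⟩ := hc.x1 hv b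
  refine ⟨E, f, h1, h2, h3, h4, h5, h6, fun a => ?_⟩
  rw [h7, h6, h6, hb', hb', real_inner_self_eq_norm_sq]
  linarith [kato_pre (c2_of hv.dd_sm x) (hb_add_nonneg' hv.dd_sm hc.le) b a]

/-- **X1** for `φ₊ = phi (dd v)`, one support for all `a` -/
theorem x1' (hv : Sol v) (h0 : 0 < phi (dd v) x) (ht : tt v x ≤ √2 * phi (dd v) x) :
    ∃ f, Touch (phi (dd v)) f x ∧ ∀ a, -qq v x * phi (dd v) x - 2 * √2 * v x * phi (dd v) x ^ 2
      + (4 * fderiv ℝ f x a - 2 * (hb (dd v) x a a + phi (dd v) x * ‖a‖ ^ 2)) ≤ Lm v f x := by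
  rcases contact hv h0 with ⟨p, hp, hc⟩ | ⟨e, he, hc⟩
  · have hF := Far.of_phi hv hp hc
    obtain ⟨P, f, -, -, h1, h2, h3, h4, h5⟩ := hF.x1 hv
    refine ⟨f, ⟨h2, h3, Eventually.of_forall fun y => (h1 y).trans_le (Zf_le hv _ y)⟩, fun a => ?_⟩
    rw [h4, h5]
    linarith [kato_far (c2_of hv.dd_sm x) (hb_add_nonneg hv x) p a, hF.Ef_nonneg hv ht]
  · have hD : Deg v (phi (dd v) x) e x := ⟨he, hc, Eventually.of_forall fun y => tay_le hv y x⟩
    obtain ⟨E, f, -, -, h1, h2, h3, -, h5⟩ := hD.x1' hv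
    refine ⟨f, ⟨h2, h3, Eventually.of_forall fun y => ?_⟩, fun a => ?_⟩
    · rw [h1]
      exact ray_le hv.dd_sm (phi_nonneg hv y) (Eventually.of_forall fun p => tay_le hv p y) _
    · linarith [Deg.src_nonneg hv ht e, h5 a]

/-! ### `N = |∇d|` -/

/-- `N = |∇d|` -/
abbrev gN (v : EE n → ℝ) (x : EE n) : ℝ := ‖∇ (dd v) x‖

theorem gN_sq (v : EE n → ℝ) (x : EE n) : gN v x ^ 2 = 1 - tt v x := by rw [tt]; ring

theorem gN_eq (v : EE n → ℝ) : gN v = fun x => √(1 - tt v x) :=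
  funext fun x => by rw [← gN_sq, Real.sqrt_sq (norm_nonneg _)]

theorem gN_sm (hv : Sol v) (h : 0 < gN v x) {k : ℕ} : ContDiffAt ℝ k (gN v) x := by
  have := pow_pos h 2
  rw [gN_sq] at this
  rw [gN_eq]
  exact (contDiffAt_const.sub (hv.tt_cd k).contDiffAt).sqrt this.ne'

theorem gN_mul (v : EE n → ℝ) : (fun y => gN v y * gN v y) = fun y => 1 - tt v y :=
  funext fun y => by rw [← gN_sq, sq]

theorem dr_gN (hv : Sol v) (h : 0 < gN v x) (a : EE n) :
    dr a (gN v) x = hb (dd v) x (∇ (dd v) x) a / gN v x := by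
  have d := (gN_sm hv h (k := 1)).differentiableAt (by simp)
  have h1 := dr_mul d d a
  rw [gN_mul, dr_sub (differentiableAt_const _) (hv.tt_diff x), dr_tt hv] at h1
  simp only [dr, fderiv_fun_const, Pi.zero_apply, zero_apply] at h1
  rw [eq_div_iff h.ne', dr]
  linarith

theorem grad_gN (hv : Sol v) (h : 0 < gN v x) :
    ∇ (gN v) x = (gN v x)⁻¹ • hop (dd v) x (∇ (dd v) x) :=
  ext_inner_right ℝ fun a => by
    rw [inner_grad, real_inner_smul_left, inner_hop, ← div_eq_inv_mul, ← dr_gN hv h, dr]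

theorem Lm_gN (hv : Sol v) (h : 0 < gN v x) :
    Lm v (gN v) x = (hsq (dd v) x - gsq (gN v) x) / gN v x - qq v x * gN v x := by
  have h1 := Lm_mul (v := v) (gN_sm hv h (k := 2)) (gN_sm hv h (k := 2))
  have h2 := hv.Lm_tt x
  rw [gN_mul, Lm_sub contDiffAt_const (hv.tt_cd 2).contDiffAt, Lm_const, gin_self] at h1
  rw [← gN_sq] at h2
  field_simp
  linarith

end

end Crest.Agent.N067.V
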