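import Crest.Agent.N067.A.Calc

/-!
# Row 67 (helper55): barrier subsolutions are weak subsolutions (no Alexandrov theorem)

`sd U x h` : coordinate second differences.  `weak_core`, `weak_on` : Rademacher + discrete parts.
-/

set_option autoImplicit false

open MeasureTheory Laplacian InnerProductSpace Topology Filter Set Metric
open scoped RealInnerProductSpace ContDiff Gradient NNReal

namespace Crest.Agent.N067.V

open Crest.Agent.R077

noncomputable section

variable {n : ℕ} {U ζ f g : EE n → ℝ} {x : EE n}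

/-- difference quotient -/
def dq (U : EE n → ℝ) (i : Fin n) (h : ℝ) (x : EE n) : ℝ := (U (x + h • ev i) - U x) / h

/-- the discrete Laplacian -/
def sd (U : EE n → ℝ) (x : EE n) (h : ℝ) : ℝ :=
  ∑ i, (U (x + h • ev i) + U (x - h • ev i) - 2 * U x) / h ^ 2

theorem hasDerivAt_line (hf : DifferentiableAt ℝ f x) {y : EE n} {i : Fin n} {h : ℝ}
    (hy : y + h • ev i = x) : HasDerivAt (fun s : ℝ => f (y + s • ev i)) (pdv i f x) h := by
  have h1 : HasDerivAt (fun s : ℝ => y + s • ev i) (ev i) h := by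
    simpa using ((hasDerivAt_id h).smul_const (ev i)).const_add y
  exact (hy ▸ hf).hasFDerivAt.comp_hasDerivAt h h1 |>.congr_deriv (by rw [hy]; rfl)

theorem tendsto_dq (hf : DifferentiableAt ℝ f x) (i : Fin n) :
    Tendsto (fun h => dq f i h x) (𝓝[>] 0) (𝓝 (pdv i f x)) := by
  have h := (hasDerivAt_line hf (y := x) (i := i) (h := 0) (by simp)).tendsto_slope_zero_right
  simpa [dq, div_eq_inv_mul] using h

theorem tendsto_sd (hf : ContDiffAt ℝ 2 f x) :
    Tendsto (sd f x) (𝓝[>] 0) (𝓝 ((Δ f) x)) := by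
  rw [lap_eq hf]
  refine tendsto_finsetSum _ fun i _ => ?_
  have c1 : Tendsto (fun h : ℝ => x + h • ev i) (𝓝[>] 0) (𝓝 x) :=
    (Continuous.tendsto' (by fun_prop) 0 x (by simp)).mono_left nhdsWithin_le_nhds
  have c2 : Tendsto (fun h : ℝ => x + (-h) • ev i) (𝓝[>] 0) (𝓝 x) :=
    (Continuous.tendsto' (by fun_prop) 0 x (by simp)).mono_left nhdsWithin_le_nhds
  simp only [sub_eq_add_neg x, ← neg_smul]
  refine HasDerivAt.lhopital_zero_nhdsGT
    (f' := fun h => pdv i f (x + h • ev i) - pdv i f (x + (-h) • ev i)) (g' := fun h => 2 * h)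
    ?_ (Eventually.of_forall fun h => by simpa using hasDerivAt_pow 2 h)
    (eventually_mem_nhdsWithin.mono fun h (hh : 0 < h) => by positivity) ?_ ?_ ?_
  · filter_upwards [c1.eventually (ev_diff hf), c2.eventually (ev_diff hf)] with h h1 h2
    have a2 := (hasDerivAt_line h2 rfl).comp h (hasDerivAt_neg h)
    exact (((hasDerivAt_line h1 rfl).add a2).sub_const (2 * f x)).congr_deriv (by ring)
  · have := ((hf.continuousAt.tendsto.comp c1).add (hf.continuousAt.tendsto.comp c2)).sub_const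
      (2 * f x)
    rwa [← two_mul, sub_self] at this
  · exact (Continuous.tendsto' (by fun_prop) 0 0 (by simp)).mono_left nhdsWithin_le_nhds
  · have a1 := hasDerivAt_line (diffAt_pdv hf i) (y := x) (i := i) (h := 0) (by simp)
    have a2 := (show HasDerivAt (fun s : ℝ => pdv i f (x + s • ev i)) _ (-0) by
      rw [neg_zero]; exact a1).comp 0 (hasDerivAt_neg (0 : ℝ))
    have a3 := (a1.sub a2).tendsto_slope_zero_right.div_const 2
    refine (a3.congr fun h => ?_).trans (le_of_eq (congrArg 𝓝 (by ring)))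
    simp [div_eq_inv_mul, mul_assoc, mul_left_comm]

theorem abs_dq_le {K : ℝ≥0} (hU : LipschitzWith K U) (i : Fin n) (h : ℝ) (x : EE n) :
    |dq U i h x| ≤ K := by
  have h1 := hU.dist_le_mul (x + h • ev i) x
  rw [Real.dist_eq, dist_eq_norm, add_sub_cancel_left, norm_smul, Real.norm_eq_abs] at h1
  simp only [ev, PiLp.norm_single, norm_one, mul_one] at h1
  rw [dq, abs_div]
  exact div_le_of_le_mul₀ (abs_nonneg _) K.2 h1

theorem continuous_dq (hU : Continuous U) (i : Fin n) (h : ℝ) : Continuous (dq U i h) := by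
  unfold dq; fun_prop

/-- discrete integration by parts -/
theorem integral_sd (hU : Continuous U) (hζ : Continuous ζ) (hc : HasCompactSupport ζ) (h : ℝ) :
    ∫ x, ζ x * sd U x h = -∑ i, ∫ x, dq U i h x * dq ζ i h x := by
  have i1 : ∀ (a : EE n → ℝ) (y : EE n), Continuous a → Integrable fun x => ζ (x + y) * a x :=
    fun a y ha => ((hζ.comp (by fun_prop)).mul ha).integrable_of_hasCompactSupport
      (hc.comp_homeomorph (Homeomorph.addRight y)).mul_right
  have i0 : ∀ a : EE n → ℝ, Continuous a → Integrable fun x => ζ x * a x := fun a ha => by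
    simpa using i1 a 0 ha
  simp only [sd, Finset.mul_sum]
  rw [integral_finsetSum _ fun i _ => i0 _ (by fun_prop), ← Finset.sum_neg_distrib]
  refine Finset.sum_congr rfl fun i _ => ?_
  have c := continuous_dq hU i h
  have e1 : ∫ x, ζ x * dq U i h (x - h • ev i) = ∫ x, ζ (x + h • ev i) * dq U i h x := by
    rw [← integral_add_right_eq_self _ (h • ev i)]
    simp only [add_sub_cancel_right]
  calc _ = ∫ x, (ζ x * dq U i h x - ζ x * dq U i h (x - h • ev i)) / h := by
        refine integral_congr_ae (Eventually.of_forall fun x => ?_)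
        simp only [dq, sub_add_cancel]
        ring
    _ = (∫ x, (ζ x * dq U i h x - ζ (x + h • ev i) * dq U i h x)) / h := by
        rw [integral_div, integral_sub (i0 _ c) (i0 (fun x => dq U i h (x - h • ev i))
          (c.comp (by fun_prop))), e1,
          integral_sub (i0 _ c) (i1 _ _ c)]
    _ = _ := by
        rw [← integral_div, ← integral_neg]
        refine integral_congr_ae (Eventually.of_forall fun x => ?_)
        simp only [dq]
        ring

theorem measurable_pdv (U : EE n → ℝ) (i : Fin n) : Measurable (pdv i U) :=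
  measurable_fderiv_apply_const ℝ U (ev i)

theorem measurable_gin (U W : EE n → ℝ) : Measurable (gin U W) :=
  Finset.measurable_sum _ fun i _ => (measurable_pdv U i).mul (measurable_pdv W i)

theorem abs_pdv_le {K : ℝ≥0} (hU : LipschitzWith K U) (i : Fin n) (x : EE n) : |pdv i U x| ≤ K := by
  have h := (fderiv ℝ U x).le_opNorm (ev i)
  simp only [ev, PiLp.norm_single, norm_one, mul_one] at h
  exact h.trans (norm_fderiv_le_of_lipschitz ℝ hU)

theorem integrable_pdv {K : ℝ≥0} (hζ : LipschitzWith K ζ) (hc : HasCompactSupport ζ) (i : Fin n) :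
    Integrable (pdv i ζ) := by
  refine (integrableOn_iff_integrable_of_support_subset (subset_tsupport _)).1 ?_
  exact Measure.integrableOn_of_bounded (hasCompactSupport_pdv hc i).isCompact.measure_lt_top.ne
    (measurable_pdv ζ i).aestronglyMeasurable (Eventually.of_forall (abs_pdv_le hζ i))

theorem tendsto_integral_dq {K K' : ℝ≥0} (hU : LipschitzWith K U) (hζ : LipschitzWith K' ζ)
    (hc : HasCompactSupport ζ) (i : Fin n) :
    Tendsto (fun h => ∫ x, dq U i h x * dq ζ i h x) (𝓝[>] 0) (𝓝 (∫ x, pdv i U x * pdv i ζ x)) := by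
  refine tendsto_integral_filter_of_dominated_convergence
    ((cthickening 1 (tsupport ζ)).indicator fun _ => (K * K' : ℝ))
    (Eventually.of_forall fun h => ((continuous_dq hU.continuous i h).mul
      (continuous_dq hζ.continuous i h)).aestronglyMeasurable) ?_
    ((integrable_indicator_iff isClosed_cthickening.measurableSet).2
      (integrableOn_const hc.isCompact.cthickening.measure_lt_top.ne)) ?_
  · filter_upwards [Ioo_mem_nhdsGT zero_lt_one] with h hh
    refine Eventually.of_forall fun x => ?_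
    by_cases hx : x ∈ cthickening 1 (tsupport ζ)
    · rw [indicator_of_mem hx, norm_mul]
      exact mul_le_mul (abs_dq_le hU i h x) (abs_dq_le hζ i h x) (norm_nonneg _) K.2
    · have a1 : ζ x = 0 := image_eq_zero_of_notMem_tsupport fun h' =>
        hx (self_subset_cthickening _ h')
      have a2 : ζ (x + h • ev i) = 0 := image_eq_zero_of_notMem_tsupport fun h' =>
        hx (mem_cthickening_of_dist_le _ _ _ _ h' (by
          simp [dist_eq_norm, norm_smul, abs_of_pos hh.1, hh.2.le]))
      simp [indicator_of_notMem hx, dq, a1, a2]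
  · filter_upwards [hU.ae_differentiableAt, hζ.ae_differentiableAt] with x h1 h2
    exact (tendsto_dq h1 i).mul (tendsto_dq h2 i)

/-- the core: global Lipschitz functions -/
theorem weak_core {K K' : ℝ≥0} (hU : LipschitzWith K U) (hζ : LipschitzWith K' ζ)
    (h0 : ∀ x, 0 ≤ ζ x) (hc : HasCompactSupport ζ) {C : ℝ}
    (hs : ∀ᶠ h in 𝓝[>] (0 : ℝ), ∀ x, ζ x ≠ 0 → -C ≤ sd U x h) (hg : Integrable fun x => ζ x * g x)
    (hb : ∀ᵐ x, ζ x ≠ 0 → ∀ ε > 0, ∀ᶠ h in 𝓝[>] (0 : ℝ), g x - ε ≤ sd U x h) :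
    ∫ x, ζ x * g x ≤ -∫ x, gin U ζ x := by
  have c1 : ∀ h, Continuous fun x => ζ x * sd U x h := fun h => by
    have := hU.continuous
    have := hζ.continuous
    unfold sd; fun_prop
  have i1 : ∀ h, Integrable fun x => ζ x * sd U x h := fun h =>
    (c1 h).integrable_of_hasCompactSupport hc.mul_right
  have t1 : Tendsto (fun h => ∫ x, ζ x * sd U x h) (𝓝[>] 0) (𝓝 (-∫ x, gin U ζ x)) := by
    simp only [integral_sd hU.continuous hζ.continuous hc, gin]
    rw [integral_finsetSum _ fun i _ => (integrable_pdv hζ hc i).bdd_mul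
      (measurable_pdv U i).aestronglyMeasurable (Eventually.of_forall (abs_pdv_le hU i))]
    exact (tendsto_finsetSum _ fun i _ => tendsto_integral_dq hU hζ hc i).neg
  have t2 : Tendsto (fun h => ∫ x, max (ζ x * g x - ζ x * sd U x h) 0) (𝓝[>] 0)
      (𝓝 (∫ _ : EE n, (0 : ℝ))) := by
    refine tendsto_integral_filter_of_dominated_convergence (fun x => |ζ x * g x| + ζ x * |C|)
      (Eventually.of_forall fun h => (hg.sub (i1 h)).pos_part.aestronglyMeasurable) ?_
      (hg.abs.add ((hζ.continuous.integrable_of_hasCompactSupport hc).mul_const _)) ?_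
    · filter_upwards [hs] with h hh
      refine Eventually.of_forall fun x => ?_
      rw [Real.norm_of_nonneg (le_max_right _ _)]
      have a0 := mul_nonneg (h0 x) (abs_nonneg C)
      refine max_le ?_ (add_nonneg (abs_nonneg _) a0)
      by_cases hx : ζ x = 0
      · simp [hx]
      · have := mul_le_mul_of_nonneg_left ((neg_le_neg (le_abs_self C)).trans (hh x hx)) (h0 x)
        linarith [le_abs_self (ζ x * g x)]
    · filter_upwards [hb] with x hx
      by_cases h1 : ζ x = 0
      · simp [h1]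
      have h2 : 0 < ζ x := (h0 x).lt_of_ne' h1
      refine tendsto_order.2 ⟨fun a ha => Eventually.of_forall fun h =>
        ha.trans_le (le_max_right _ _), fun a ha => ?_⟩
      filter_upwards [hx h1 (a / 2 / ζ x) (by positivity)] with h hh
      have := mul_le_mul_of_nonneg_left hh h2.le
      rw [mul_sub, mul_div_cancel₀ _ h1] at this
      exact max_lt (by linarith) ha
  rw [integral_zero] at t2
  refine ge_of_tendsto' (add_zero (-∫ x, gin U ζ x) ▸ t1.add t2) fun h => ?_
  refine (integral_mono hg ((i1 h).add (hg.sub (i1 h)).pos_part) fun x => ?_).trans_eq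
    (integral_add (i1 h) (hg.sub (i1 h)).pos_part)
  change ζ x * g x ≤ ζ x * sd U x h + max (ζ x * g x - ζ x * sd U x h) 0
  linarith [le_max_left (ζ x * g x - ζ x * sd U x h) 0]

/-! ### the local statement -/

variable {Ω : Set (EE n)}

/-- supported from below by paraboloids, uniformly on compact subsets of `Ω` -/
def SC (Ω : Set (EE n)) (U : EE n → ℝ) : Prop :=
  ∀ K ⊆ Ω, IsCompact K → ∃ C δ : ℝ, 0 ≤ C ∧ 0 < δ ∧ ∀ x ∈ K, ∃ p : EE n, ‖p‖ ≤ C ∧
    ∀ y, ‖y‖ ≤ δ → U x + ⟪p, y⟫ - C * ‖y‖ ^ 2 ≤ U (x + y)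

theorem SC.locLip (hU : SC Ω U) (hΩ : IsOpen Ω) : LocallyLipschitzOn Ω U := by
  intro x hx
  obtain ⟨r, hr, h1⟩ := nhds_basis_closedBall.mem_iff.1 (hΩ.mem_nhds hx)
  obtain ⟨C, δ, hC, hδ, H⟩ := hU _ h1 (isCompact_closedBall x r)
  have key : ∀ a ∈ ball x (min r (δ / 2)), ∀ b ∈ ball x (min r (δ / 2)),
      U a - U b ≤ (C + C * δ) * dist a b := fun a ha b hb => by
    obtain ⟨p, hp, h2⟩ := H a (closedBall_subset_closedBall (min_le_left _ _)
      (ball_subset_closedBall ha))
    have h3 : ‖b - a‖ ≤ δ := by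
      have := dist_triangle_right b a x
      rw [dist_eq_norm] at this
      linarith [mem_ball.1 ha, mem_ball.1 hb, min_le_right r (δ / 2)]
    have h4 := h2 _ h3
    have h5 := (neg_le_neg ((abs_real_inner_le_norm p (b - a)).trans
      (mul_le_mul_of_nonneg_right hp (norm_nonneg _)))).trans (neg_abs_le _)
    have h6 := mul_le_mul_of_nonneg_left h3 (mul_nonneg hC (norm_nonneg (b - a)))
    rw [add_sub_cancel] at h4
    rw [dist_comm, dist_eq_norm]
    nlinarith
  refine ⟨⟨C + C * δ, by positivity⟩, _, mem_nhdsWithin_of_mem_nhds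
    (ball_mem_nhds x (lt_min hr (half_pos hδ))), LipschitzOnWith.of_dist_le_mul fun a ha b hb => ?_⟩
  rw [Real.dist_eq, abs_sub_le_iff]
  exact ⟨key a ha b hb, dist_comm a b ▸ key b hb a ha⟩

theorem exists_lip (hΩ : IsOpen Ω) (hζ : LocallyLipschitzOn Ω ζ) (hc : HasCompactSupport ζ)
    (hs : tsupport ζ ⊆ Ω) : ∃ K, LipschitzWith K ζ := by
  have h1 : LocallyLipschitzOn univ ζ := fun x _ => by
    by_cases hx : x ∈ Ω
    · obtain ⟨K, t, ht, h⟩ := hζ hx
      exact ⟨K, t, by rwa [nhdsWithin_univ, ← hΩ.nhdsWithin_eq hx], h⟩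
    · refine ⟨0, (tsupport ζ)ᶜ, mem_nhdsWithin_of_mem_nhds ((isClosed_tsupport ζ).isOpen_compl.mem_nhds
        fun h => hx (hs h)), fun a ha b hb => ?_⟩
      simp [image_eq_zero_of_notMem_tsupport ha, image_eq_zero_of_notMem_tsupport hb]
  obtain ⟨K, hK⟩ := (h1.mono (subset_univ _)).exists_lipschitzOnWith_of_compact
    (hc.isCompact.cthickening (r := 1))
  obtain ⟨M, hM⟩ := (continuousOn_univ.1 h1.continuousOn).bounded_above_of_compact_support hc
  have hM0 : 0 ≤ M := (norm_nonneg _).trans (hM 0)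
  have key : ∀ a b, a ∉ cthickening 1 (tsupport ζ) → dist (ζ a) (ζ b) ≤ (K + M) * dist a b :=
    fun a b ha => by
      rw [image_eq_zero_of_notMem_tsupport fun h => ha (self_subset_cthickening _ h)]
      by_cases hb : b ∈ tsupport ζ
      · have : 1 < dist a b := not_le.1 fun h => ha (mem_cthickening_of_dist_le _ _ _ _ hb h)
        rw [dist_zero_left]
        nlinarith [hM b, K.coe_nonneg]
      · rw [image_eq_zero_of_notMem_tsupport hb, dist_self]; positivity
  refine ⟨K + ⟨M, hM0⟩, LipschitzWith.of_dist_le_mul fun a b => ?_⟩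
  change _ ≤ (K + M) * _
  by_cases ha : a ∈ cthickening 1 (tsupport ζ)
  · by_cases hb : b ∈ cthickening 1 (tsupport ζ)
    · exact (hK.dist_le_mul a ha b hb).trans (by gcongr; linarith)
    · rw [dist_comm, dist_comm a]; exact key b a hb
  · exact key a b ha

/-- Rademacher, local form -/
theorem ae_diff (hΩ : IsOpen Ω) (hU : LocallyLipschitzOn Ω U) :
    ∀ᵐ x, x ∈ Ω → DifferentiableAt ℝ U x := by
  refine measure_null_of_locally_null _ fun x hx => ?_
  obtain ⟨K, t, ht, h⟩ := hU (Classical.not_imp.1 hx).1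
  rw [hΩ.nhdsWithin_eq (Classical.not_imp.1 hx).1] at ht
  refine ⟨_, ?_, h.ae_differentiableWithinAt_of_mem (μ := volume)⟩
  filter_upwards [self_mem_nhdsWithin, mem_nhdsWithin_of_mem_nhds (eventually_mem_nhds_iff.2 ht)]
    with y hy hy' h1
  exact hy fun _ => (h1 (mem_of_mem_nhds hy')).differentiableAt hy'

theorem fderiv_touch (hU : DifferentiableAt ℝ U x) (hf : DifferentiableAt ℝ f x) (h1 : f x = U x)
    (h2 : ∀ᶠ y in 𝓝 x, f y ≤ U y) : fderiv ℝ f x = fderiv ℝ U x := by
  have h : IsLocalMin (fun y => U y - f y) x := h2.mono fun y hy => by simp [h1, hy]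
  have h3 := h.fderiv_eq_zero
  rw [fderiv_fun_sub hU hf, sub_eq_zero] at h3
  exact h3.symm

/-- `f` touches `U` from below at `x` -/
structure Touch (U f : EE n → ℝ) (x : EE n) : Prop where
  c2 : ContDiffAt ℝ 2 f x
  eq : f x = U x
  le : ∀ᶠ y in 𝓝 x, f y ≤ U y

theorem Touch.fderiv_eq (h : Touch U f x) (hU : DifferentiableAt ℝ U x) :
    fderiv ℝ f x = fderiv ℝ U x := fderiv_touch hU (h.c2.differentiableAt (by simp)) h.eq h.le

theorem Touch.pdv_eq (h : Touch U f x) (hU : DifferentiableAt ℝ U x) (i : Fin n) :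
    pdv i f x = pdv i U x := by rw [pdv, pdv, h.fderiv_eq hU]

theorem Touch.grad_eq (h : Touch U f x) (hU : DifferentiableAt ℝ U x) : ∇ f x = ∇ U x := by
  rw [gradient, gradient, h.fderiv_eq hU]

theorem Touch.sd_le (h : Touch U f x) : ∀ᶠ s in 𝓝[>] (0 : ℝ), sd f x s ≤ sd U x s := by
  have c1 : ∀ y : EE n, ∀ᶠ s : ℝ in 𝓝[>] 0, f (x + s • y) ≤ U (x + s • y) := fun y =>
    ((Continuous.tendsto' (f := fun s : ℝ => x + s • y) (by fun_prop) 0 x (by simp)).mono_left
      nhdsWithin_le_nhds).eventually h.le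
  filter_upwards [eventually_all.2 fun i => c1 (ev i), eventually_all.2 fun i => c1 (-ev i)]
    with s h1 h2
  refine Finset.sum_le_sum fun i _ => div_le_div_of_nonneg_right ?_ (sq_nonneg _)
  have h3 := h2 i
  rw [smul_neg, ← sub_eq_add_neg] at h3
  linarith [h1 i, h.eq]

/-- **barrier subsolutions are weak subsolutions** -/
theorem weak_on (hΩ : IsOpen Ω) (hU : SC Ω U) (hζ : LocallyLipschitzOn Ω ζ) (h0 : ∀ x, 0 ≤ ζ x)
    (hc : HasCompactSupport ζ) (hs : tsupport ζ ⊆ Ω) (hg : Integrable fun x => ζ x * g x)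
    (hb : ∀ᵐ x, ζ x ≠ 0 → DifferentiableAt ℝ U x →
      ∀ ε > 0, ∃ f, Touch U f x ∧ g x - ε ≤ (Δ f) x) :
    ∫ x, ζ x * g x ≤ -∫ x, gin U ζ x := by
  obtain ⟨K', hK'⟩ := exists_lip hΩ hζ hc hs
  obtain ⟨r, hr, h1⟩ := hc.isCompact.exists_cthickening_subset_open hΩ hs
  obtain ⟨K, hK⟩ := ((hU.locLip hΩ).mono h1).exists_lipschitzOnWith_of_compact
    hc.isCompact.cthickening
  obtain ⟨W, hW, h2⟩ := hK.extend_real
  obtain ⟨C, δ, hC, hδ, H⟩ := hU _ hs hc.isCompact
  have h3 : ∀ x ∈ tsupport ζ, U =ᶠ[𝓝 x] W := fun x hx =>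
    h2.eventuallyEq_of_mem (mem_of_superset (closedBall_mem_nhds x hr)
      (closedBall_subset_cthickening hx r))
  have h4 : ∀ᶠ s in 𝓝[>] (0 : ℝ), ∀ x ∈ tsupport ζ, sd W x s = sd U x s := by
    filter_upwards [Ioo_mem_nhdsGT hr] with s hs x hx
    refine Finset.sum_congr rfl fun i _ => ?_
    rw [(h3 x hx).self_of_nhds, h2 (mem_cthickening_of_dist_le _ x _ _ hx ?_),
      h2 (mem_cthickening_of_dist_le _ x _ _ hx ?_)] <;>
    simp [dist_eq_norm, norm_smul, abs_of_pos hs.1, hs.2.le]
  have h5 : gin U ζ = gin W ζ := funext fun x => by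
    by_cases hx : x ∈ tsupport ζ
    · exact gin_congr_left (h3 x hx)
    · simp [gin, pdv, (notMem_tsupport_iff_eventuallyEq.1 hx).fderiv_eq]
  rw [h5]
  refine weak_core hW hK' h0 hc (C := n * (2 * C)) ?_ hg ?_
  · filter_upwards [h4, Ioo_mem_nhdsGT hδ] with s h6 hs x hx
    obtain ⟨p, -, hp⟩ := H x (subset_tsupport _ hx)
    rw [h6 x (subset_tsupport _ hx)]
    refine le_trans (by simp) (Finset.sum_le_sum (f := fun _ => -(2 * C)) fun i _ => ?_)
    have a0 : ‖s • ev i‖ = s := by simp [norm_smul, abs_of_pos hs.1]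
    have a1 := hp (s • ev i) (a0.trans_le hs.2.le)
    have a2 := hp (-(s • ev i)) ((norm_neg _).trans_le (a0.trans_le hs.2.le))
    rw [norm_neg, inner_neg_right, ← sub_eq_add_neg x] at a2
    rw [a0] at a1 a2
    rw [le_div_iff₀ (pow_pos hs.1 2)]
    linarith
  · filter_upwards [hb, hW.ae_differentiableAt] with x h6 h7 hx ε hε
    obtain ⟨f, hf, h8⟩ := h6 hx (h7.congr_of_eventuallyEq (h3 x (subset_tsupport _ hx))) _
      (half_pos hε)
    filter_upwards [h4, hf.sd_le, (tendsto_sd hf.c2).eventually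
      (lt_mem_nhds (sub_lt_self _ (half_pos hε)))] with s a1 a2 a3
    rw [a1 x (subset_tsupport _ hx)]
    linarith

end

end Crest.Agent.N067.V
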